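import Vale.Agent.Lib.Space.Defs
import Mathlib.Analysis.SpecialFunctions.Pow.Asymptotics
import Mathlib.Analysis.SpecialFunctions.Log.Base
import Mathlib.Tactic

/-! Growth bounds: polynomial bounds, bounds `(r+2)^(c (r+1)²)`, and the final asymptotics. -/

namespace Vale.Agent.P312

open Vale.Agent.Lib.Space

/-- Polynomially bounded functions. -/
def PB (f : ℕ → ℕ) : Prop := ∃ c, ∀ r, f r ≤ (r + 2) ^ c

/-- Functions bounded by `c (r+1)²`. -/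
def QB (f : ℕ → ℕ) : Prop := ∃ c, ∀ r, f r ≤ c * (r + 1) ^ 2

/-- Functions bounded by `(r+2)^(c (r+1)²)`. -/
def EB (f : ℕ → ℕ) : Prop := ∃ c, ∀ r, f r ≤ (r + 2) ^ (c * (r + 1) ^ 2)

theorem pow_mono_r (r : ℕ) {a b : ℕ} (h : a ≤ b) : (r + 2) ^ a ≤ (r + 2) ^ b :=
  Nat.pow_le_pow_right (by omega) h

theorem add_le_pow (r : ℕ) {x y a b : ℕ} (hx : x ≤ (r + 2) ^ a) (hy : y ≤ (r + 2) ^ b) :
    x + y ≤ (r + 2) ^ (a + b + 1) := by
  have h1 := hx.trans (pow_mono_r r (Nat.le_add_right a b))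
  have h2 := hy.trans (pow_mono_r r (Nat.le_add_left b a))
  rw [pow_succ]
  nlinarith [Nat.zero_le ((r + 2) ^ (a + b) * r)]

namespace PB

theorem const (k : ℕ) : PB fun _ => k :=
  ⟨k, fun r => (Nat.lt_pow_self (show 1 < r + 2 by omega)).le⟩

theorem id : PB fun r => r := ⟨1, fun r => by simp⟩

theorem mono {f g : ℕ → ℕ} (hg : PB g) (h : ∀ r, f r ≤ g r) : PB f :=
  let ⟨c, hc⟩ := hg; ⟨c, fun r => (h r).trans (hc r)⟩

theorem add {f g : ℕ → ℕ} (hf : PB f) (hg : PB g) : PB fun r => f r + g r :=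
  let ⟨a, ha⟩ := hf; let ⟨b, hb⟩ := hg; ⟨a + b + 1, fun r => add_le_pow r (ha r) (hb r)⟩

theorem mul {f g : ℕ → ℕ} (hf : PB f) (hg : PB g) : PB fun r => f r * g r :=
  let ⟨a, ha⟩ := hf; let ⟨b, hb⟩ := hg
  ⟨a + b, fun r => by rw [pow_add]; exact Nat.mul_le_mul (ha r) (hb r)⟩

theorem pow {f : ℕ → ℕ} (hf : PB f) (k : ℕ) : PB fun r => f r ^ k :=
  let ⟨a, ha⟩ := hf
  ⟨a * k, fun r => by rw [pow_mul]; exact Nat.pow_le_pow_left (ha r) k⟩

theorem eb {f : ℕ → ℕ} (hf : PB f) : EB f :=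
  let ⟨a, ha⟩ := hf
  ⟨a, fun r => (ha r).trans (pow_mono_r r (Nat.le_mul_of_pos_right _ (by positivity)))⟩

/-- A polynomially bounded base to a quadratically bounded exponent. -/
theorem pow_qb {f g : ℕ → ℕ} (hf : PB f) (hg : QB g) : EB fun r => f r ^ g r := by
  obtain ⟨a, ha⟩ := hf
  obtain ⟨b, hb⟩ := hg
  refine ⟨a * b, fun r => (Nat.pow_le_pow_left (ha r) _).trans ?_⟩
  rw [← pow_mul, mul_assoc]
  exact pow_mono_r r (Nat.mul_le_mul_left _ (hb r))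

end PB

namespace EB

theorem mono {f g : ℕ → ℕ} (hg : EB g) (h : ∀ r, f r ≤ g r) : EB f :=
  let ⟨c, hc⟩ := hg; ⟨c, fun r => (h r).trans (hc r)⟩

theorem add {f g : ℕ → ℕ} (hf : EB f) (hg : EB g) : EB fun r => f r + g r := by
  obtain ⟨a, ha⟩ := hf
  obtain ⟨b, hb⟩ := hg
  refine ⟨a + b + 1, fun r => (add_le_pow r (ha r) (hb r)).trans (pow_mono_r r ?_)⟩
  have : 1 ≤ (r + 1) ^ 2 := Nat.one_le_pow _ _ (by omega)
  nlinarith

theorem mul {f g : ℕ → ℕ} (hf : EB f) (hg : EB g) : EB fun r => f r * g r :=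
  let ⟨a, ha⟩ := hf; let ⟨b, hb⟩ := hg
  ⟨a + b, fun r => by rw [add_mul, pow_add]; exact Nat.mul_le_mul (ha r) (hb r)⟩

theorem pow {f : ℕ → ℕ} (hf : EB f) (k : ℕ) : EB fun r => f r ^ k :=
  let ⟨a, ha⟩ := hf
  ⟨a * k, fun r => by
    rw [mul_right_comm, pow_mul]; exact Nat.pow_le_pow_left (ha r) k⟩

end EB

/-- The number of guesses to the power `r + 2`. -/
theorem eb_guess {N D : ℕ → ℕ} (hN : PB N) (hD : PB D) :
    EB fun r => (N r * D r ^ (r + 1) + 1) ^ (r + 2) := by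
  have h1 : PB fun r => (N r + 1) * (D r + 1) := (hN.add (PB.const 1)).mul (hD.add (PB.const 1))
  refine (h1.pow_qb (g := fun r => (r + 1) * (r + 2)) ⟨2, fun r => by nlinarith⟩).mono fun r => ?_
  rw [pow_mul]
  refine Nat.pow_le_pow_left ?_ _
  rw [mul_pow]
  have a1 : D r ^ (r + 1) ≤ (D r + 1) ^ (r + 1) := Nat.pow_le_pow_left (by omega) _
  have a2 : 1 ≤ (D r + 1) ^ (r + 1) := Nat.one_le_pow _ _ (by omega)
  have a3 : N r + 1 ≤ (N r + 1) ^ (r + 1) := Nat.le_self_pow (by omega) _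
  calc N r * D r ^ (r + 1) + 1 ≤ N r * (D r + 1) ^ (r + 1) + (D r + 1) ^ (r + 1) :=
        add_le_add (Nat.mul_le_mul_left _ a1) a2
    _ = (N r + 1) * (D r + 1) ^ (r + 1) := by ring
    _ ≤ _ := Nat.mul_le_mul_right _ a3

/-- The least `r ≥ 1` with `t ≤ r ^ 5`. -/
theorem exists_root (t : ℕ) : ∃ r, 1 ≤ r ∧ t ≤ r ^ 5 ∧ (2 ≤ t → (r - 1) ^ 5 < t) := by
  classical
  have h : ∃ r, 1 ≤ r ∧ t ≤ r ^ 5 :=
    ⟨t + 1, by omega, (Nat.le_succ t).trans (Nat.le_self_pow (by norm_num) _)⟩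
  refine ⟨Nat.find h, (Nat.find_spec h).1, (Nat.find_spec h).2, fun ht => ?_⟩
  by_contra h2
  have h3 := Nat.find_min h (m := Nat.find h - 1) (by have := (Nat.find_spec h).1; omega)
  refine h3 ⟨?_, not_lt.1 h2⟩
  by_contra h4
  have : Nat.find h - 1 = 0 := by omega
  rw [this] at h2
  simp at h2
  omega

theorem log_bound (c : ℕ) : ∃ C : ℝ, ∀ t r B : ℕ, 2 ≤ t → (r - 1) ^ 5 ≤ t →
    B ≤ (r + 2) ^ (c * (r + 1) ^ 2) →
    ((Nat.log 2 B + 1 : ℕ) : ℝ) ≤ C * ((t : ℝ) ^ (2 / 5 : ℝ) * Real.log t) := by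
  refine ⟨(27 * c + 1) / Real.log 2, fun t r B ht hr hB => ?_⟩
  have hl2 : 0 < Real.log 2 := Real.log_pos (by norm_num)
  have ht' : (2 : ℝ) ≤ t := by exact_mod_cast ht
  have hlt : Real.log 2 ≤ Real.log t := Real.log_le_log (by norm_num) ht'
  set y : ℝ := (t : ℝ) ^ (1 / 5 : ℝ) with hy
  have hy1 : 1 ≤ y := Real.one_le_rpow (by linarith) (by norm_num)
  have hy5 : y ^ 5 = t := by
    rw [hy, ← Real.rpow_natCast, ← Real.rpow_mul (by linarith)]; norm_num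
  have hy2 : (t : ℝ) ^ (2 / 5 : ℝ) = y ^ 2 := by
    rw [hy, ← Real.rpow_natCast, ← Real.rpow_mul (by linarith)]; norm_num
  have hry : ((r - 1 : ℕ) : ℝ) ≤ y := by
    refine le_of_pow_le_pow_left₀ (n := 5) (by norm_num) (by linarith) ?_
    rw [hy5]; exact_mod_cast hr
  have hr1 : (r : ℝ) + 1 ≤ 3 * y := by
    have : (r : ℝ) ≤ ((r - 1 : ℕ) : ℝ) + 1 := by exact_mod_cast (by omega : r ≤ r - 1 + 1)
    linarith
  have hr2 : r + 2 ≤ t ^ 3 := by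
    have h1 : r - 1 ≤ (r - 1) ^ 5 := Nat.le_self_pow (by norm_num) _
    have h2 : r ≤ t + 1 := by omega
    have h3 : 2 * 2 ≤ t * t := Nat.mul_le_mul ht ht
    have h4 : t ^ 3 = t * t * t := by ring
    nlinarith
  have hlog : Real.log ((r : ℝ) + 2) ≤ 3 * Real.log t := by
    have : ((r : ℝ) + 2) ≤ (t : ℝ) ^ 3 := by exact_mod_cast hr2
    have h2 := Real.log_le_log (by positivity) this
    rwa [Real.log_pow] at h2
  have hN : (Nat.log 2 B : ℝ) * Real.log 2 ≤ (c * ((r : ℝ) + 1) ^ 2) * Real.log ((r : ℝ) + 2) := by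
    rcases Nat.eq_zero_or_pos B with rfl | hB0
    · simp only [Nat.log_zero_right, Nat.cast_zero, zero_mul]
      exact mul_nonneg (by positivity) (Real.log_nonneg (by linarith [(Nat.cast_nonneg r : (0 : ℝ) ≤ r)]))
    have h1 : 2 ^ Nat.log 2 B ≤ (r + 2) ^ (c * (r + 1) ^ 2) :=
      (Nat.pow_log_le_self 2 hB0.ne').trans hB
    have h2 : (2 : ℝ) ^ Nat.log 2 B ≤ ((r : ℝ) + 2) ^ (c * (r + 1) ^ 2) := by exact_mod_cast h1
    have h3 := Real.log_le_log (by positivity) h2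
    rw [Real.log_pow, Real.log_pow] at h3
    push_cast at h3
    exact h3
  have hsq : ((r : ℝ) + 1) ^ 2 ≤ 9 * y ^ 2 := by
    have := pow_le_pow_left₀ (by positivity) hr1 2
    nlinarith
  have hc : (0 : ℝ) ≤ c := Nat.cast_nonneg c
  have hy2' : 1 ≤ y ^ 2 := one_le_pow₀ hy1
  have hlt0 : 0 ≤ Real.log t := by linarith
  rw [hy2, div_mul_eq_mul_div, le_div_iff₀ hl2]
  push_cast
  have e1 : (c * ((r : ℝ) + 1) ^ 2) * Real.log ((r : ℝ) + 2) ≤ (c * (9 * y ^ 2)) * (3 * Real.log t) :=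
    mul_le_mul (mul_le_mul_of_nonneg_left hsq hc) hlog
      (Real.log_nonneg (by linarith [(Nat.cast_nonneg r : (0 : ℝ) ≤ r)])) (by positivity)
  have e2 : Real.log t ≤ y ^ 2 * Real.log t := le_mul_of_one_le_left hlt0 hy2'
  nlinarith

theorem SPACE_mono {A : Type} {s s' : ℕ → ℝ} (hs : ∀ n, 0 ≤ s n)
    (h : ∃ (C : ℝ) (N : ℕ), ∀ n, N ≤ n → s n ≤ C * s' n) : SPACE A s ⊆ SPACE A s' := by
  obtain ⟨C, N, h⟩ := h
  rintro L ⟨M, hM, C₀, N₀, h₀⟩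
  refine ⟨M, hM, max C₀ 0 * C, max N N₀, fun x hx => ?_⟩
  obtain ⟨F, hF, hF'⟩ := h₀ x (le_trans (le_max_right _ _) hx)
  refine ⟨F, hF.trans ?_, hF'⟩
  rw [mul_assoc]
  exact (mul_le_mul_of_nonneg_right (le_max_left _ _) (hs _)).trans
    (mul_le_mul_of_nonneg_left (h _ (le_trans (le_max_left _ _) hx)) (le_max_right _ _))

/-- `t^(2/5) log t = O(t^e)` for `e > 2/5`. -/
theorem SPACE_log_subset {A : Type} (t : ℕ → ℕ) {e : ℝ} (he : 2 / 5 < e) :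
    SPACE A (fun n => (t n : ℝ) ^ (2 / 5 : ℝ) * Real.log (t n)) ⊆
      SPACE A fun n => (t n : ℝ) ^ e := by
  refine SPACE_mono (fun n => mul_nonneg (by positivity) (Real.log_natCast_nonneg _))
    ⟨1 / (e - 2 / 5), 0, fun n _ => ?_⟩
  have h0 : (0 : ℝ) ≤ t n := Nat.cast_nonneg _
  have h1 := Real.log_le_rpow_div h0 (sub_pos.2 he)
  have h2 : (t n : ℝ) ^ e = (t n : ℝ) ^ (2 / 5 : ℝ) * (t n : ℝ) ^ (e - 2 / 5) := by
    rw [← Real.rpow_add' h0 (by linarith)]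
    congr 1
    ring
  rw [h2]
  calc (t n : ℝ) ^ (2 / 5 : ℝ) * Real.log (t n)
      ≤ (t n : ℝ) ^ (2 / 5 : ℝ) * ((t n : ℝ) ^ (e - 2 / 5) / (e - 2 / 5)) :=
        mul_le_mul_of_nonneg_left h1 (by positivity)
    _ = _ := by ring

end Vale.Agent.P312
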