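import Vale.Agent.P312.Num

/-!
The catalytic stack machine which evaluates a node of a directed acyclic graph. A node is a pair
of numbers; nodes with second component `0` are dummy nodes. The state of the machine consists of
the call stack (one number) and three registers.
-/

namespace Vale.Agent.P312

open Finset

/-- The data of the graph and the numerical parameters. -/
structure Dag where
  /-- the prime -/
  q : ℕ
  /-- length of the vectors -/
  N : ℕ
  /-- bound for the entries of the vectors -/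
  D : ℕ
  /-- the number `D ^ N` -/
  DN : ℕ
  /-- number of guesses -/
  G : ℕ
  /-- number of checks -/
  J : ℕ
  /-- cut off for powers -/
  M : ℕ
  /-- primary child -/
  P : ℕ × ℕ → ℕ × ℕ
  /-- secondary children -/
  S : ℕ × ℕ → ℕ → ℕ → ℕ × ℕ
  /-- the checks -/
  chk : ℕ × ℕ → ℕ → ℕ → ℕ → ℕ → ℕ

/-- Radix of the guess in a frame. -/
def gr (G tag : ℕ) : ℕ := if 3 ≤ tag then G + 1 else 1

/-- Push a frame on the stack `st`. -/
def fr (q G tag : ℕ) (u : ℕ × ℕ) (l g jj m acc s st : ℕ) : ℕ :=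
  ((((((((st * gr G tag + g) * (q + 1) + u.1) * (q + 1) + u.2) * (q + 1) + l) * (q + 1) + jj)
    * (q + 1) + m) * (q + 1) + acc) * (q + 1) + s) * (q + 1) + tag

/-- Call of the node `u`. -/
def enter (q G : ℕ) (u : ℕ × ℕ) (st : ℕ) : ℕ := if u.2 = 0 then st else fr q G 1 u 0 0 0 0 0 0 st

/-- Subtraction modulo `q`. -/
def subm (q s e : ℕ) : ℕ := (s + q - e % q) % q

/-- One step, in terms of the fields of the top frame and the rest `st` of the stack. -/
def stepF (d : Dag) (tag : ℕ) (u : ℕ × ℕ) (l g jj m acc s st : ℕ) (σ : ℕ × ℕ × ℕ × ℕ) :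
    ℕ × ℕ × ℕ × ℕ :=
  if tag = 1 then
    if l = d.q then (st, σ.2)
    else (enter d.q d.G (d.P u) (fr d.q d.G 2 u (l + 1) 0 0 0 0 0 st), σ.2.2.1, σ.2.2.2, σ.2.1)
  else if tag = 2 then
    (if l = d.q then fr d.q d.G 1 u l 0 0 0 0 0 st else fr d.q d.G 3 u l 0 0 0 0 0 st,
      σ.2.2.2, σ.2.1, σ.2.2.1)
  else if tag = 3 then
    (if g = d.G then fr d.q d.G 1 u l 0 0 0 0 0 st else fr d.q d.G 4 u l g 0 0 1 0 st, σ.2)
  else if tag = 4 then
    if jj = d.J then (fr d.q d.G 3 u l (g + 1) 0 0 0 0 st,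
      setd d.M d.q σ.2.1 (g % d.N) (subm d.q (dig d.q σ.2.1 (g % d.N)) acc), σ.2.2)
    else (fr d.q d.G 5 u l g jj 0 acc 0 st, σ.2)
  else if tag = 5 then
    if m = d.q then (fr d.q d.G 4 u l g (jj + 1) 0 (acc * s % d.q) 0 st, σ.2)
    else (enter d.q d.G (d.S u g jj) (fr d.q d.G 6 u l g jj (m + 1) acc s st),
      σ.2.2.2, σ.2.1, σ.2.2.1)
  else if tag = 6 then
    (fr d.q d.G 5 u l g jj m acc (if m = d.q then s else
      subm d.q s (ext d.q d.D d.N d.DN (d.chk u g jj) l σ.2.2.2 m σ.2.1)) st,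
      σ.2.2.1, σ.2.2.2, σ.2.1)
  else σ

/-- One step of the stack machine. -/
def step (d : Dag) (σ : ℕ × ℕ × ℕ × ℕ) : ℕ × ℕ × ℕ × ℕ :=
  stepF d (dig (d.q + 1) σ.1 0) (dig (d.q + 1) σ.1 7, dig (d.q + 1) σ.1 6) (dig (d.q + 1) σ.1 5)
    (σ.1 / (d.q + 1) ^ 8 % gr d.G (dig (d.q + 1) σ.1 0)) (dig (d.q + 1) σ.1 4)
    (dig (d.q + 1) σ.1 3) (dig (d.q + 1) σ.1 2) (dig (d.q + 1) σ.1 1)
    (σ.1 / (d.q + 1) ^ 8 / gr d.G (dig (d.q + 1) σ.1 0)) σ

theorem psh_mod {B x : ℕ} (hx : x < B) (y : ℕ) : (y * B + x) % B = x := by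
  rw [Nat.mul_add_mod_of_lt hx]

theorem psh_div {B x : ℕ} (hx : x < B) (y : ℕ) : (y * B + x) / B = y := by
  rw [mul_comm, Nat.mul_add_div (by omega), Nat.div_eq_of_lt hx, add_zero]

theorem div_pow_succ (X B i : ℕ) : X / B ^ (i + 1) = X / B / B ^ i := by
  rw [Nat.div_div_eq_div_mul, pow_succ']

theorem gr_pos (G tag : ℕ) : 0 < gr G tag := by
  unfold gr; split_ifs <;> omega

theorem gr_le (G tag : ℕ) : gr G tag ≤ G + 1 := by
  unfold gr; split_ifs <;> omega

theorem step_fr (d : Dag) {tag : ℕ} {u : ℕ × ℕ} {l g jj m acc s : ℕ} (st : ℕ) (R : ℕ × ℕ × ℕ)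
    (ht : tag ≤ d.q) (hu : u.1 ≤ d.q ∧ u.2 ≤ d.q) (hl : l ≤ d.q) (hg : g < gr d.G tag)
    (hj : jj ≤ d.q) (hm : m ≤ d.q) (ha : acc ≤ d.q) (hs : s ≤ d.q) :
    step d (fr d.q d.G tag u l g jj m acc s st, R) =
      stepF d tag u l g jj m acc s st (fr d.q d.G tag u l g jj m acc s st, R) := by
  have ht' := Nat.lt_succ_of_le ht
  have hu1 := Nat.lt_succ_of_le hu.1
  have hu2 := Nat.lt_succ_of_le hu.2
  have hl' := Nat.lt_succ_of_le hl
  have hj' := Nat.lt_succ_of_le hj
  have hm' := Nat.lt_succ_of_le hm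
  have ha' := Nat.lt_succ_of_le ha
  have hs' := Nat.lt_succ_of_le hs
  rw [step]
  congr 1 <;>
    simp only [fr, dig_succ, dig_zero, div_pow_succ, pow_zero, Nat.div_one, psh_mod ht',
      psh_div ht', psh_mod hu1, psh_div hu1, psh_mod hu2, psh_div hu2, psh_mod hl', psh_div hl',
      psh_mod hj', psh_div hj', psh_mod hm', psh_div hm', psh_mod ha', psh_div ha', psh_mod hs',
      psh_div hs', psh_mod hg, psh_div hg]

theorem psh_le {B x y Y : ℕ} (hx : x < B) (hy : y + 1 ≤ Y) : y * B + x + 1 ≤ Y * B := by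
  nlinarith

theorem fr_le {q G tag : ℕ} {u : ℕ × ℕ} {l g jj m acc s : ℕ} (st : ℕ)
    (ht : tag ≤ q) (hu : u.1 ≤ q ∧ u.2 ≤ q) (hl : l ≤ q) (hg : g < gr G tag)
    (hj : jj ≤ q) (hm : m ≤ q) (ha : acc ≤ q) (hs : s ≤ q) :
    fr q G tag u l g jj m acc s st + 1 ≤ (st + 1) * (gr G tag * (q + 1) ^ 8) := by
  have h := psh_le (Nat.lt_succ_of_le ht) (psh_le (Nat.lt_succ_of_le hs)
    (psh_le (Nat.lt_succ_of_le ha) (psh_le (Nat.lt_succ_of_le hm) (psh_le (Nat.lt_succ_of_le hj)
    (psh_le (Nat.lt_succ_of_le hl) (psh_le (Nat.lt_succ_of_le hu.2)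
    (psh_le (Nat.lt_succ_of_le hu.1) (psh_le hg (le_refl (st + 1))))))))))
  refine h.trans (le_of_eq ?_)
  simp only [Nat.succ_eq_add_one]
  ring

theorem fr_ne_zero {q G tag : ℕ} {u : ℕ × ℕ} {l g jj m acc s st : ℕ} (ht : tag ≠ 0) :
    fr q G tag u l g jj m acc s st ≠ 0 := by
  unfold fr; omega

/-! ### Reachability through admissible states -/

/-- Iterating `f` leads from the first state to the second one, and all states before the last one
satisfy `ok`. -/
inductive Reach {σ : Type} (f : σ → σ) (ok : σ → Prop) : σ → σ → Prop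
  | refl (s : σ) : Reach f ok s s
  | step {s t : σ} : ok s → Reach f ok (f s) t → Reach f ok s t

section reach

variable {σ : Type} {f : σ → σ} {ok : σ → Prop}

theorem Reach.trans {s t r : σ} (h : Reach f ok s t) (h' : Reach f ok t r) : Reach f ok s r := by
  induction h with
  | refl => exact h'
  | step h0 _ ih => exact Reach.step h0 (ih h')

theorem Reach.one {s t : σ} (h : ok s) (e : f s = t) : Reach f ok s t :=
  Reach.step h (e ▸ Reach.refl _)

theorem Reach.loop (F : ℕ → σ) (n : ℕ) (h : ∀ i < n, Reach f ok (F i) (F (i + 1))) :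
    Reach f ok (F 0) (F n) := by
  induction n with
  | zero => exact Reach.refl _
  | succ n ih => exact (ih fun i hi => h i (by omega)).trans (h n (by omega))

theorem Reach.exists_iterate {s t : σ} (h : Reach f ok s t) :
    ∃ n, f^[n] s = t ∧ ∀ k < n, ok (f^[k] s) := by
  induction h with
  | refl s => exact ⟨0, rfl, fun k hk => by omega⟩
  | step h0 _ ih =>
    obtain ⟨n, e, hn⟩ := ih
    refine ⟨n + 1, e, fun k hk => ?_⟩
    cases k with
    | zero => exact h0
    | succ k => exact hn k (by omega)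

end reach

end Vale.Agent.P312
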