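import Vale.Agent.P312.Num

/-!
Functions of low degree over `ZMod q`, and the averaging identity behind the catalytic trick.
-/

namespace Vale.Agent.P312

open Finset

variable {q : ℕ} [hq : Fact q.Prime]

/-- `φ` is given by a polynomial of degree at most `d`. -/
def LowDeg (d : ℕ) (φ : ZMod q → ZMod q) : Prop :=
  ∃ p : Polynomial (ZMod q), p.natDegree ≤ d ∧ ∀ x, φ x = p.eval x

theorem LowDeg.mono {d d' : ℕ} {φ : ZMod q → ZMod q} (h : LowDeg d φ) (hd : d ≤ d') :
    LowDeg d' φ := by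
  obtain ⟨p, hp, e⟩ := h
  exact ⟨p, hp.trans hd, e⟩

theorem LowDeg.const (d : ℕ) (c : ZMod q) : LowDeg d fun _ => c :=
  ⟨Polynomial.C c, by simp, fun x => by simp⟩

theorem LowDeg.lin (a b : ZMod q) : LowDeg 1 fun x => x * a + b := by
  refine ⟨Polynomial.C a * Polynomial.X + Polynomial.C b, Polynomial.natDegree_linear_le,
    fun x => ?_⟩
  rw [Polynomial.eval_add, Polynomial.eval_mul, Polynomial.eval_C, Polynomial.eval_C,
    Polynomial.eval_X, mul_comm]

theorem LowDeg.add {d : ℕ} {φ ψ : ZMod q → ZMod q} (h : LowDeg d φ) (h' : LowDeg d ψ) :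
    LowDeg d fun x => φ x + ψ x := by
  obtain ⟨p, hp, e⟩ := h
  obtain ⟨p', hp', e'⟩ := h'
  exact ⟨p + p', (Polynomial.natDegree_add_le _ _).trans (max_le hp hp'), fun x => by
    simp [e, e']⟩

theorem LowDeg.mul {d d' : ℕ} {φ ψ : ZMod q → ZMod q} (h : LowDeg d φ) (h' : LowDeg d' ψ) :
    LowDeg (d + d') fun x => φ x * ψ x := by
  obtain ⟨p, hp, e⟩ := h
  obtain ⟨p', hp', e'⟩ := h'
  exact ⟨p * p', Polynomial.natDegree_mul_le.trans (add_le_add hp hp'), fun x => by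
    simp [e, e']⟩

theorem LowDeg.sum {d : ℕ} {ι : Type*} (s : Finset ι) {φ : ι → ZMod q → ZMod q}
    (h : ∀ i ∈ s, LowDeg d (φ i)) : LowDeg d fun x => ∑ i ∈ s, φ i x := by
  classical
  induction s using Finset.induction_on with
  | empty => simpa using LowDeg.const d 0
  | insert a s ha ih =>
    simp only [sum_insert ha]
    exact (h a (mem_insert_self _ _)).add (ih fun i hi => h i (mem_insert_of_mem hi))

theorem LowDeg.prod {d : ℕ} (n : ℕ) {φ : ℕ → ZMod q → ZMod q}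
    (h : ∀ i < n, LowDeg d (φ i)) : LowDeg (n * d) fun x => ∏ i ∈ range n, φ i x := by
  induction n with
  | zero => simpa using LowDeg.const 0 1
  | succ n ih =>
    simp only [prod_range_succ, add_mul, one_mul]
    exact (ih fun i hi => h i (by omega)).mul (h n (by omega))

theorem LowDeg.sum_univ {d : ℕ} {φ : ZMod q → ZMod q} (h : LowDeg d φ) (hd : d < q - 1) :
    ∑ x, φ x = 0 := by
  obtain ⟨p, hp, e⟩ := h
  simp only [e, Polynomial.eval_eq_sum_range' (lt_of_le_of_lt hp (Nat.lt_succ_self d))]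
  rw [sum_comm]
  refine sum_eq_zero fun i hi => ?_
  rw [← mul_sum, FiniteField.sum_pow_lt_card_sub_one, mul_zero]
  rw [ZMod.card]
  have := mem_range.1 hi
  omega

theorem cast_succ_ne {l : ℕ} (hl : l + 1 < q) : ((l + 1 : ℕ) : ZMod q) ≠ 0 := by
  rw [Ne, ZMod.natCast_eq_zero_iff]
  exact Nat.not_dvd_of_pos_of_lt (by omega) hl

/-- The averaging identity. -/
theorem LowDeg.sum_inv {d : ℕ} {φ : ZMod q → ZMod q} (h : LowDeg d φ) (hd : d < q - 1) :
    ∑ l ∈ range (q - 1), φ ((l + 1 : ℕ) : ZMod q)⁻¹ = -φ 0 := by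
  have h2 := hq.out.two_le
  have h0 := h.sum_univ hd
  have h1 : ∑ x, φ x = ∑ x : ZMod q, φ x⁻¹ :=
    (Equiv.sum_comp (Equiv.inv (ZMod q)) φ).symm
  have h3 : ∑ x : ZMod q, φ x⁻¹ = ∑ l ∈ range q, φ (l : ZMod q)⁻¹ := by
    symm
    refine sum_bij (fun l _ => (l : ZMod q)) (fun _ _ => mem_univ _) ?_ ?_ fun _ _ => rfl
    · intro a ha b hb e
      rw [ZMod.natCast_eq_natCast_iff', Nat.mod_eq_of_lt (mem_range.1 ha),
        Nat.mod_eq_of_lt (mem_range.1 hb)] at e
      exact e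
    · intro x _
      exact ⟨x.val, mem_range.2 (ZMod.val_lt x), by simp⟩
  have h4 : ∑ l ∈ range q, φ (l : ZMod q)⁻¹
      = ∑ l ∈ range (q - 1), φ ((l + 1 : ℕ) : ZMod q)⁻¹ + φ 0 := by
    conv_lhs => rw [show range q = range (q - 1 + 1) by congr 1; omega]
    rw [sum_range_succ']
    simp
  rw [eq_neg_iff_add_eq_zero, ← h4, ← h3, ← h1, h0]

theorem lowDeg_lagZ (D c : ℕ) (a b : ZMod q) : LowDeg D fun x => lagZ D c (x * a + b) := by
  have : LowDeg (D * 1) fun x : ZMod q => lagZ D c (x * a + b) := by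
    refine LowDeg.prod D fun c' _ => ?_
    split_ifs
    · exact LowDeg.const _ _
    · have h1 := LowDeg.lin a (b - ((c' : ℕ) : ZMod q))
      have h2 := h1.mul (LowDeg.const 0 ((c : ZMod q) - ((c' : ℕ) : ZMod q))⁻¹)
      simpa [add_sub_assoc] using h2
  simpa using this

theorem lowDeg_wtZ (D N b : ℕ) (τ v : ℕ → ZMod q) :
    LowDeg (N * D) fun x => wtZ D N b fun i => x * τ i + v i :=
  LowDeg.prod N fun _ _ => lowDeg_lagZ _ _ _ _

theorem lowDeg_extZ_left (D N : ℕ) (F : ℕ → ℕ → ℕ) (τ v Y : ℕ → ZMod q) :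
    LowDeg (N * D) fun x => extZ D N F (fun i => x * τ i + v i) Y := by
  refine LowDeg.sum _ fun b _ => LowDeg.sum _ fun c _ => ?_
  have := (LowDeg.const 0 (F b c : ZMod q)).mul
    ((lowDeg_wtZ D N b τ v).mul (LowDeg.const 0 (wtZ D N c Y)))
  simpa using this

theorem lowDeg_extZ_right (D N : ℕ) (F : ℕ → ℕ → ℕ) (τ v X : ℕ → ZMod q) :
    LowDeg (N * D) fun x => extZ D N F X fun i => x * τ i + v i := by
  refine LowDeg.sum _ fun b _ => LowDeg.sum _ fun c _ => ?_
  have := (LowDeg.const 0 (F b c : ZMod q)).mul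
    ((LowDeg.const 0 (wtZ D N b X)).mul (lowDeg_wtZ D N c τ v))
  simpa using this

end Vale.Agent.P312
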