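import Vale.Agent.P312.Dag
import Vale.Agent.P312.LowDeg

/-!
Correctness of the catalytic stack machine, with a bound for the size of the stack.
-/

namespace Vale.Agent.P312

open Finset

/-- The conditions under which the stack machine evaluates the valid nodes. `V` is the set of valid
nodes, `val` the value of a node, `dep` bounds the depth of the recursion and `eps` the number of
nested guesses. -/
structure Dag.Good (d : Dag) (V : ℕ × ℕ → Prop) (val dep eps : ℕ × ℕ → ℕ) : Prop where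
  D0 : 0 < d.D
  Dq : d.D ≤ d.q
  DN : d.DN = d.D ^ d.N
  M : d.q ^ d.N ≤ d.M
  N0 : 0 < d.N
  six : 6 ≤ d.q
  Jq : d.J ≤ d.q
  deg1 : d.N * d.D < d.q - 1
  deg : d.J * (d.N * d.D) < d.q - 1
  small : ∀ u, V u → u.1 ≤ d.q ∧ u.2 ≤ d.q
  VP : ∀ u, V u → u.2 ≠ 0 → V (d.P u)
  VS : ∀ u, V u → u.2 ≠ 0 → ∀ g < d.G, ∀ jj < d.J, V (d.S u g jj)
  depP : ∀ u, V u → u.2 ≠ 0 → dep (d.P u) < dep u
  epsP : ∀ u, V u → u.2 ≠ 0 → eps (d.P u) ≤ eps u
  depS : ∀ u, V u → u.2 ≠ 0 → ∀ g < d.G, ∀ jj < d.J, dep (d.S u g jj) < dep u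
  epsS : ∀ u, V u → u.2 ≠ 0 → ∀ g < d.G, ∀ jj < d.J, eps (d.S u g jj) < eps u
  eps1 : ∀ u, V u → u.2 ≠ 0 → 1 ≤ eps u
  val_lt : ∀ u, V u → val u < d.D ^ d.N
  val0 : ∀ u, u.2 = 0 → val u = 0
  ident : ∀ u, V u → u.2 ≠ 0 → ∀ i < d.N, dig d.D (val u) i =
    ∑ g ∈ range d.G, if g % d.N = i then
      ∏ jj ∈ range d.J, d.chk u g jj (val (d.P u)) (val (d.S u g jj)) else 0

/-- Admissible states: the stack is nonempty and at most `Bd`, the registers are vectors. -/
def Dag.ok (d : Dag) (Bd : ℕ) (σ : ℕ × ℕ × ℕ × ℕ) : Prop :=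
  σ.1 ≠ 0 ∧ σ.1 ≤ Bd ∧ σ.2.1 < d.q ^ d.N ∧ σ.2.2.1 < d.q ^ d.N ∧ σ.2.2.2 < d.q ^ d.N

/-- The factor by which the stack grows during the call of a node. -/
def Dag.W (d : Dag) (dp ep : ℕ) : ℕ := (d.q + 1) ^ (8 * dp) * (d.G + 1) ^ ep

variable {d : Dag} [hq : Fact d.q.Prime]

/-- The call of `u` on top of the stack `st` adds `v` to the first register. -/
def Dag.Adds (d : Dag) (Bd : ℕ) (u : ℕ × ℕ) (st : ℕ) (v : ℕ → ZMod d.q) : Prop :=
  ∀ fA fB fC : ℕ → ZMod d.q, Reach (step d) (d.ok Bd)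
    (enter d.q d.G u st, num d.N fA, num d.N fB, num d.N fC)
    (st, num d.N (fun i => fA i + v i), num d.N fB, num d.N fC)

theorem subm_val {q : ℕ} [hq : Fact q.Prime] (s : ZMod q) (e : ℕ) :
    subm q s.val e = (s - e).val := by
  have h : e % q ≤ q := (Nat.mod_lt _ hq.out.pos).le
  rw [subm, ← ZMod.val_natCast, cast_add_sub _ _ h]
  simp

theorem val_le {q : ℕ} [hq : Fact q.Prime] (s : ZMod q) : s.val ≤ q := (ZMod.val_lt s).le

theorem ok_fr {Bd tag : ℕ} {u : ℕ × ℕ} {l g jj m acc s st : ℕ} (fA fB fC : ℕ → ZMod d.q)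
    (hB : (st + 1) * ((d.G + 1) * (d.q + 1) ^ 8) ≤ Bd) (ht0 : tag ≠ 0)
    (ht : tag ≤ d.q) (hu : u.1 ≤ d.q ∧ u.2 ≤ d.q) (hl : l ≤ d.q) (hg : g < gr d.G tag)
    (hj : jj ≤ d.q) (hm : m ≤ d.q) (ha : acc ≤ d.q) (hs : s ≤ d.q) :
    d.ok Bd (fr d.q d.G tag u l g jj m acc s st, num d.N fA, num d.N fB, num d.N fC) := by
  refine ⟨fr_ne_zero ht0, ?_, num_lt _ _, num_lt _ _, num_lt _ _⟩
  have h1 := fr_le st ht hu hl hg hj hm ha hs
  have h2 : (st + 1) * (gr d.G tag * (d.q + 1) ^ 8) ≤ (st + 1) * ((d.G + 1) * (d.q + 1) ^ 8) := by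
    gcongr
    exact gr_le _ _
  dsimp only
  omega

/-- The innermost loop: evaluation of one check. -/
theorem run_mu {Bd : ℕ} {u : ℕ × ℕ} {l g jj st : ℕ} (acc : ZMod d.q) (v : ℕ → ZMod d.q)
    (hD0 : 0 < d.D) (hD : d.D ≤ d.q) (hDN : d.DN = d.D ^ d.N) (h6 : 6 ≤ d.q)
    (hdeg : d.N * d.D < d.q - 1)
    (hB : (st + 1) * ((d.G + 1) * (d.q + 1) ^ 8) ≤ Bd) (hu : u.1 ≤ d.q ∧ u.2 ≤ d.q)
    (hl : l ≤ d.q) (hl0 : (l : ZMod d.q) ≠ 0) (hg : g < d.G) (hj : jj ≤ d.q)
    (hS : ∀ st', st' + 1 ≤ (st + 1) * ((d.G + 1) * (d.q + 1) ^ 8) → d.Adds Bd (d.S u g jj) st' v)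
    (fA fB fC : ℕ → ZMod d.q) :
    Reach (step d) (d.ok Bd)
      (fr d.q d.G 5 u l g jj 0 acc.val 0 st, num d.N fA, num d.N fB, num d.N fC)
      (fr d.q d.G 4 u l g (jj + 1) 0
        (acc * extZ d.D d.N (d.chk u g jj) (fun i => (l : ZMod d.q)⁻¹ * fB i) v).val 0 st,
        num d.N fA, num d.N fB, num d.N fC) := by
  have hg5 : g < gr d.G 5 := by simp [gr]; omega
  have hg6 : g < gr d.G 6 := by simp [gr]; omega
  set E : ℕ → ZMod d.q := fun m => extZ d.D d.N (d.chk u g jj) (fun i => (l : ZMod d.q)⁻¹ * fB i)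
    fun i => (m : ZMod d.q)⁻¹ * (fC i + m * v i) with hE
  set sv : ℕ → ZMod d.q := fun m => -∑ m' ∈ range m, if m' + 1 = d.q then 0 else E (m' + 1)
    with hsv
  have hloop := Reach.loop (f := step d) (ok := d.ok Bd)
    (fun m : ℕ => (fr d.q d.G 5 u l g jj m acc.val (sv m).val st, num d.N fA, num d.N fB,
      num d.N fun i => fC i + (m : ZMod d.q) * v i)) d.q (by
    intro m hm
    have hfr := fr_le (tag := 6) (m := m + 1) st h6 hu hl hg6 hj hm (val_le acc) (val_le (sv m))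
    refine Reach.step (ok_fr _ _ _ hB (by omega) (by omega) hu hl hg5 hj hm.le (val_le _)
      (val_le _)) ?_
    rw [step_fr d st _ (by omega) hu hl hg5 hj hm.le (val_le _) (val_le _)]
    simp only [stepF, Nat.reduceEqDiff, if_false, if_true, if_neg hm.ne]
    refine (hS _ (by simpa [gr] using hfr) _ _ _).trans ?_
    refine Reach.one (ok_fr _ _ _ hB (by omega) (by omega) hu hl hg6 hj hm (val_le _)
      (val_le _)) ?_
    rw [step_fr d st _ (by omega) hu hl hg6 hj hm (val_le _) (val_le _)]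
    simp only [stepF, Nat.reduceEqDiff, if_false, if_true]
    have e1 : (fun i => fC i + (m : ZMod d.q) * v i + v i)
        = fun i => fC i + ((m + 1 : ℕ) : ZMod d.q) * v i := by
      funext i; push_cast; ring
    rw [e1]
    congr 2
    by_cases h : m + 1 = d.q
    · rw [if_pos h]
      simp only [hsv, sum_range_succ, if_pos h, add_zero]
    · rw [if_neg h, subm_val, hDN, cast_ext hD0 hD _ _ _ hl0 (cast_succ_ne (by omega))]
      simp only [hsv, sum_range_succ, if_neg h, hE]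
      congr 1
      ring)
  have e0 : (sv 0).val = 0 := by simp [hsv]
  have e1 : (fun i => fC i + ((0 : ℕ) : ZMod d.q) * v i) = fC := by funext i; simp
  have e2 : (fun i => fC i + ((d.q : ℕ) : ZMod d.q) * v i) = fC := by funext i; simp
  have e3 : sv d.q = extZ d.D d.N (d.chk u g jj) (fun i => (l : ZMod d.q)⁻¹ * fB i) v := by
    have h1 := (lowDeg_extZ_right d.D d.N (d.chk u g jj) fC v
      (fun i => (l : ZMod d.q)⁻¹ * fB i)).sum_inv hdeg
    simp only [zero_mul, zero_add] at h1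
    have h2 : ∑ m' ∈ range d.q, (if m' + 1 = d.q then 0 else E (m' + 1))
        = ∑ m' ∈ range (d.q - 1), E (m' + 1) := by
      conv_lhs => rw [show range d.q = range (d.q - 1 + 1) by congr 1; omega]
      rw [sum_range_succ, if_pos (by omega), add_zero]
      refine sum_congr rfl fun m hm => if_neg ?_
      have := mem_range.1 hm
      omega
    simp only [hsv]
    rw [h2, neg_eq_iff_eq_neg, ← h1]
    refine sum_congr rfl fun m hm => ?_
    have hne : ((m + 1 : ℕ) : ZMod d.q) ≠ 0 := cast_succ_ne (by have := mem_range.1 hm; omega)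
    simp only [hE]
    congr 1
    funext i
    rw [mul_add, ← mul_assoc, inv_mul_cancel₀ hne, one_mul]
  simp only [e0, e1, e2, e3] at hloop
  refine hloop.trans (Reach.one (ok_fr _ _ _ hB (by omega) (by omega) hu hl hg5 hj le_rfl
    (val_le _) (val_le _)) ?_)
  rw [step_fr d st _ (by omega) hu hl hg5 hj le_rfl (val_le _) (val_le _)]
  simp only [stepF, Nat.reduceEqDiff, if_false, if_true, ZMod.val_mul]

/-- The loop over the checks of one guess. -/
theorem run_jj {Bd : ℕ} {u : ℕ × ℕ} {l g st : ℕ} (v : ℕ → ℕ → ZMod d.q)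
    (hD0 : 0 < d.D) (hD : d.D ≤ d.q) (hDN : d.DN = d.D ^ d.N) (h6 : 6 ≤ d.q)
    (hdeg : d.N * d.D < d.q - 1) (hJ : d.J ≤ d.q) (hN : 0 < d.N) (hM : d.q ^ d.N ≤ d.M)
    (hB : (st + 1) * ((d.G + 1) * (d.q + 1) ^ 8) ≤ Bd) (hu : u.1 ≤ d.q ∧ u.2 ≤ d.q)
    (hl : l ≤ d.q) (hl0 : (l : ZMod d.q) ≠ 0) (hg : g < d.G)
    (hS : ∀ jj < d.J, ∀ st', st' + 1 ≤ (st + 1) * ((d.G + 1) * (d.q + 1) ^ 8) →
      d.Adds Bd (d.S u g jj) st' (v jj))
    (fA fB fC : ℕ → ZMod d.q) :
    Reach (step d) (d.ok Bd)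
      (fr d.q d.G 3 u l g 0 0 0 0 st, num d.N fA, num d.N fB, num d.N fC)
      (fr d.q d.G 3 u l (g + 1) 0 0 0 0 st,
        num d.N (fun i => fA i - if g % d.N = i then ∏ jj ∈ range d.J,
          extZ d.D d.N (d.chk u g jj) (fun i => (l : ZMod d.q)⁻¹ * fB i) (v jj) else 0),
        num d.N fB, num d.N fC) := by
  have hg3 : g < gr d.G 3 := by simp [gr]; omega
  have hg4 : g < gr d.G 4 := by simp [gr]; omega
  set av : ℕ → ZMod d.q := fun n => ∏ jj ∈ range n,
    extZ d.D d.N (d.chk u g jj) (fun i => (l : ZMod d.q)⁻¹ * fB i) (v jj) with hav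
  have hloop := Reach.loop (f := step d) (ok := d.ok Bd)
    (fun n => (fr d.q d.G 4 u l g n 0 (av n).val 0 st, num d.N fA, num d.N fB, num d.N fC))
    d.J (by
    intro n hn
    refine Reach.step (ok_fr _ _ _ hB (by omega) (by omega) hu hl hg4 (by omega) (by omega)
      (val_le _) (by omega)) ?_
    rw [step_fr d st _ (by omega) hu hl hg4 (by omega) (by omega) (val_le _) (by omega)]
    simp only [stepF, Nat.reduceEqDiff, if_false, if_true, if_neg hn.ne]
    have := run_mu (av n) (v n) hD0 hD hDN h6 hdeg hB hu hl hl0 hg (by omega) (hS n hn) fA fB fC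
    simpa only [hav, prod_range_succ] using this)
  have e0 : (av 0).val = 1 := by
    simp only [hav, range_zero, prod_empty]
    exact ZMod.val_one _
  simp only [e0] at hloop
  refine Reach.step (ok_fr _ _ _ hB (by omega) (by omega) hu hl hg3 (by omega) (by omega)
    (by omega) (by omega)) ?_
  rw [step_fr d st _ (by omega) hu hl hg3 (by omega) (by omega) (by omega) (by omega)]
  simp only [stepF, Nat.reduceEqDiff, if_false, if_true, if_neg hg.ne]
  refine hloop.trans (Reach.one (ok_fr _ _ _ hB (by omega) (by omega) hu hl hg4 hJ (by omega)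
    (val_le _) (by omega)) ?_)
  rw [step_fr d st _ (by omega) hu hl hg4 hJ (by omega) (val_le _) (by omega)]
  simp only [stepF, Nat.reduceEqDiff, if_false, if_true]
  have hi : g % d.N < d.N := Nat.mod_lt _ hN
  rw [dig_num fA hi, subm_val, setd_num fA hi hM]
  congr 2
  refine num_congr fun i _ => ?_
  by_cases h : g % d.N = i
  · subst h
    simp [hav]
  · simp [h, Ne.symm h]

/-- The loop over the guesses. -/
theorem run_g {Bd : ℕ} {u : ℕ × ℕ} {l st : ℕ} (v : ℕ → ℕ → ℕ → ZMod d.q)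
    (hD0 : 0 < d.D) (hD : d.D ≤ d.q) (hDN : d.DN = d.D ^ d.N) (h6 : 6 ≤ d.q)
    (hdeg : d.N * d.D < d.q - 1) (hJ : d.J ≤ d.q) (hN : 0 < d.N) (hM : d.q ^ d.N ≤ d.M)
    (hB : (st + 1) * ((d.G + 1) * (d.q + 1) ^ 8) ≤ Bd) (hu : u.1 ≤ d.q ∧ u.2 ≤ d.q)
    (hl : l ≤ d.q) (hl0 : (l : ZMod d.q) ≠ 0)
    (hS : ∀ g < d.G, ∀ jj < d.J, ∀ st', st' + 1 ≤ (st + 1) * ((d.G + 1) * (d.q + 1) ^ 8) →
      d.Adds Bd (d.S u g jj) st' (v g jj))
    (fA fB fC : ℕ → ZMod d.q) :
    Reach (step d) (d.ok Bd)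
      (fr d.q d.G 3 u l 0 0 0 0 0 st, num d.N fA, num d.N fB, num d.N fC)
      (fr d.q d.G 1 u l 0 0 0 0 0 st,
        num d.N (fun i => fA i - ∑ g ∈ range d.G, if g % d.N = i then ∏ jj ∈ range d.J,
          extZ d.D d.N (d.chk u g jj) (fun i => (l : ZMod d.q)⁻¹ * fB i) (v g jj) else 0),
        num d.N fB, num d.N fC) := by
  have hg3 : d.G < gr d.G 3 := by simp [gr]
  have hloop := Reach.loop (f := step d) (ok := d.ok Bd)
    (fun n => (fr d.q d.G 3 u l n 0 0 0 0 st,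
      num d.N (fun i => fA i - ∑ g ∈ range n, if g % d.N = i then ∏ jj ∈ range d.J,
          extZ d.D d.N (d.chk u g jj) (fun i => (l : ZMod d.q)⁻¹ * fB i) (v g jj) else 0),
      num d.N fB, num d.N fC)) d.G (by
    intro n hn
    have := run_jj (v n) hD0 hD hDN h6 hdeg hJ hN hM hB hu hl hl0 hn (hS n hn)
      (fun i => fA i - ∑ g ∈ range n, if g % d.N = i then ∏ jj ∈ range d.J,
          extZ d.D d.N (d.chk u g jj) (fun i => (l : ZMod d.q)⁻¹ * fB i) (v g jj) else 0) fB fC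
    simpa only [sum_range_succ, sub_sub] using this)
  simp only [range_zero, sum_empty, sub_zero] at hloop
  refine hloop.trans (Reach.one (ok_fr _ _ _ hB (by omega) (by omega) hu hl hg3 (by omega)
    (by omega) (by omega) (by omega)) ?_)
  rw [step_fr d st _ (by omega) hu hl hg3 (by omega) (by omega) (by omega) (by omega)]
  simp only [stepF, Nat.reduceEqDiff, if_false, if_true]

/-- The outer loop. -/
theorem run_lam {Bd : ℕ} {u : ℕ × ℕ} {st : ℕ} (w : ℕ → ZMod d.q) (v : ℕ → ℕ → ℕ → ZMod d.q)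
    (hD0 : 0 < d.D) (hD : d.D ≤ d.q) (hDN : d.DN = d.D ^ d.N) (h6 : 6 ≤ d.q)
    (hdeg : d.N * d.D < d.q - 1) (hdeg' : d.J * (d.N * d.D) < d.q - 1) (hJ : d.J ≤ d.q)
    (hN : 0 < d.N) (hM : d.q ^ d.N ≤ d.M)
    (hB : (st + 1) * ((d.G + 1) * (d.q + 1) ^ 8) ≤ Bd) (hu : u.1 ≤ d.q ∧ u.2 ≤ d.q)
    (hP : ∀ st', st' + 1 ≤ (st + 1) * (d.q + 1) ^ 8 → d.Adds Bd (d.P u) st' w)
    (hS : ∀ g < d.G, ∀ jj < d.J, ∀ st', st' + 1 ≤ (st + 1) * ((d.G + 1) * (d.q + 1) ^ 8) →
      d.Adds Bd (d.S u g jj) st' (v g jj))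
    (fA fB fC : ℕ → ZMod d.q) :
    Reach (step d) (d.ok Bd)
      (fr d.q d.G 1 u 0 0 0 0 0 0 st, num d.N fA, num d.N fB, num d.N fC)
      (st, num d.N (fun i => fA i + ∑ g ∈ range d.G, if g % d.N = i then ∏ jj ∈ range d.J,
          extZ d.D d.N (d.chk u g jj) w (v g jj) else 0),
        num d.N fB, num d.N fC) := by
  have hg1 : 0 < gr d.G 1 := gr_pos _ _
  have hg2 : 0 < gr d.G 2 := gr_pos _ _
  set φ : ℕ → ZMod d.q → ZMod d.q := fun i x => ∑ g ∈ range d.G, if g % d.N = i then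
    ∏ jj ∈ range d.J, extZ d.D d.N (d.chk u g jj) (fun i => x * fB i + w i) (v g jj) else 0
    with hφ
  set sv : ℕ → ℕ → ZMod d.q := fun n i =>
    fA i - ∑ l ∈ range n, if l + 1 = d.q then 0 else φ i ((l + 1 : ℕ) : ZMod d.q)⁻¹ with hsv
  have hloop := Reach.loop (f := step d) (ok := d.ok Bd)
    (fun n : ℕ => (fr d.q d.G 1 u n 0 0 0 0 0 st, num d.N (sv n),
      num d.N fun i => fB i + (n : ZMod d.q) * w i, num d.N fC)) d.q (by
    intro l hl
    have hfr := fr_le (tag := 2) (l := l + 1) (jj := 0) (m := 0) (acc := 0) (s := 0) st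
      (by omega) hu hl hg2 (by omega) (by omega) (by omega) (by omega)
    refine Reach.step (ok_fr _ _ _ hB (by omega) (by omega) hu hl.le hg1 (by omega) (by omega)
      (by omega) (by omega)) ?_
    rw [step_fr d st _ (by omega) hu hl.le hg1 (by omega) (by omega) (by omega) (by omega)]
    simp only [stepF, if_true, if_neg hl.ne]
    refine (hP _ (by simpa [gr] using hfr) _ _ _).trans ?_
    refine Reach.step (ok_fr _ _ _ hB (by omega) (by omega) hu hl hg2 (by omega) (by omega)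
      (by omega) (by omega)) ?_
    rw [step_fr d st _ (by omega) hu hl hg2 (by omega) (by omega) (by omega) (by omega)]
    simp only [stepF, Nat.reduceEqDiff, if_false, if_true]
    have e1 : (fun i => fB i + (l : ZMod d.q) * w i + w i)
        = fun i => fB i + ((l + 1 : ℕ) : ZMod d.q) * w i := by
      funext i; push_cast; ring
    rw [e1]
    by_cases h : l + 1 = d.q
    · rw [if_pos h]
      have : sv (l + 1) = sv l := by
        funext i
        simp only [hsv, sum_range_succ, if_pos h, add_zero]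
      rw [this]
      exact Reach.refl _
    · rw [if_neg h]
      have hne : ((l + 1 : ℕ) : ZMod d.q) ≠ 0 := cast_succ_ne (by omega)
      have := run_g v hD0 hD hDN h6 hdeg hJ hN hM hB hu hl hne hS (sv l)
        (fun i => fB i + ((l + 1 : ℕ) : ZMod d.q) * w i) fC
      have e2 : (fun i => ((l + 1 : ℕ) : ZMod d.q)⁻¹ * (fB i + ((l + 1 : ℕ) : ZMod d.q) * w i))
          = fun i => ((l + 1 : ℕ) : ZMod d.q)⁻¹ * fB i + w i := by
        funext i
        rw [mul_add, ← mul_assoc, inv_mul_cancel₀ hne, one_mul]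
      rw [e2] at this
      have e3 : sv (l + 1) = fun i => sv l i - φ i ((l + 1 : ℕ) : ZMod d.q)⁻¹ := by
        funext i
        simp only [hsv, sum_range_succ, if_neg h, sub_sub]
      rw [e3]
      exact this)
  have e0 : sv 0 = fA := by funext i; simp [hsv]
  have e1 : (fun i => fB i + ((0 : ℕ) : ZMod d.q) * w i) = fB := by funext i; simp
  have e2 : (fun i => fB i + ((d.q : ℕ) : ZMod d.q) * w i) = fB := by funext i; simp
  have e3 : sv d.q = fun i => fA i + ∑ g ∈ range d.G, if g % d.N = i then ∏ jj ∈ range d.J,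
      extZ d.D d.N (d.chk u g jj) w (v g jj) else 0 := by
    funext i
    have h0 : LowDeg (d.J * (d.N * d.D)) (φ i) := by
      refine LowDeg.sum _ fun g _ => ?_
      split_ifs
      · exact LowDeg.prod _ fun jj _ => lowDeg_extZ_left _ _ _ _ _ _
      · exact LowDeg.const _ _
    have h1 := h0.sum_inv hdeg'
    have h2 : ∑ l ∈ range d.q, (if l + 1 = d.q then 0 else φ i ((l + 1 : ℕ) : ZMod d.q)⁻¹)
        = ∑ l ∈ range (d.q - 1), φ i ((l + 1 : ℕ) : ZMod d.q)⁻¹ := by
      conv_lhs => rw [show range d.q = range (d.q - 1 + 1) by congr 1; omega]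
      rw [sum_range_succ, if_pos (by omega), add_zero]
      refine sum_congr rfl fun m hm => if_neg ?_
      have := mem_range.1 hm
      omega
    simp only [hsv]
    rw [h2, h1, sub_neg_eq_add]
    simp only [hφ, zero_mul, zero_add]
  simp only [e0, e1, e2, e3] at hloop
  refine hloop.trans (Reach.one (ok_fr _ _ _ hB (by omega) (by omega) hu le_rfl hg1 (by omega)
    (by omega) (by omega) (by omega)) ?_)
  rw [step_fr d st _ (by omega) hu le_rfl hg1 (by omega) (by omega) (by omega) (by omega)]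
  simp only [stepF, if_true]

/-- The stack machine evaluates the valid nodes. -/
theorem Dag.Good.adds {V : ℕ × ℕ → Prop} {val dep eps : ℕ × ℕ → ℕ} (h : d.Good V val dep eps)
    (Bd : ℕ) : ∀ (n : ℕ) (u : ℕ × ℕ), dep u < n → V u → ∀ st,
      (st + 1) * d.W (dep u) (eps u) ≤ Bd → d.Adds Bd u st (vec d.q d.D (val u)) := by
  intro n
  induction n with
  | zero => intro u hu; omega
  | succ n ih =>
    intro u hn hV st hB fA fB fC
    by_cases h0 : u.2 = 0
    · rw [enter, if_pos h0, h.val0 u h0]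
      have : (fun i => fA i + vec d.q d.D 0 i) = fA := by funext i; simp [vec]
      rw [this]
      exact Reach.refl _
    rw [enter, if_neg h0]
    have hdP := h.depP u hV h0
    have heP := h.epsP u hV h0
    have he1 := h.eps1 u hV h0
    have key : ∀ (st' dp ep a : ℕ), st' + 1 ≤ (st + 1) * ((d.G + 1) ^ a * (d.q + 1) ^ 8) →
        dp < dep u → ep + a ≤ eps u → (st' + 1) * d.W dp ep ≤ Bd := by
      intro st' dp ep a h1 h2 h3
      refine le_trans ?_ hB
      calc (st' + 1) * d.W dp ep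
          ≤ (st + 1) * ((d.G + 1) ^ a * (d.q + 1) ^ 8) * d.W dp ep := by gcongr
        _ = (st + 1) * ((d.q + 1) ^ (8 * (dp + 1)) * (d.G + 1) ^ (ep + a)) := by
          rw [Dag.W]; ring
        _ ≤ (st + 1) * d.W (dep u) (eps u) := by
          rw [Dag.W]
          gcongr <;> omega
    have hB' : (st + 1) * ((d.G + 1) * (d.q + 1) ^ 8) ≤ Bd := by
      have := key ((st + 1) * ((d.G + 1) * (d.q + 1) ^ 8) - 1) 0 0 1 (by
        have : 0 < (st + 1) * ((d.G + 1) * (d.q + 1) ^ 8) := by positivity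
        rw [pow_one]; omega) (by omega) (by omega)
      simp only [Dag.W, mul_zero, pow_zero, mul_one] at this
      omega
    have := run_lam (u := u) (st := st) (Bd := Bd) (vec d.q d.D (val (d.P u)))
      (fun g jj => vec d.q d.D (val (d.S u g jj))) h.D0 h.Dq h.DN h.six h.deg1 h.deg h.Jq h.N0 h.M
      hB' (h.small u hV)
      (fun st' hst => ih _ (by omega) (h.VP u hV h0) st'
        (key st' _ _ 0 (by simpa using hst) hdP (by omega)))
      (fun g hg jj hj st' hst => ih _ (by have := h.depS u hV h0 g hg jj hj; omega)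
        (h.VS u hV h0 g hg jj hj) st'
        (key st' _ _ 1 (by simpa using hst) (h.depS u hV h0 g hg jj hj)
          (h.epsS u hV h0 g hg jj hj))) fA fB fC
    convert this using 3
    refine num_congr fun i hi => ?_
    congr 1
    rw [vec, h.ident u hV h0 i hi]
    push_cast
    refine sum_congr rfl fun g hg => ?_
    split_ifs
    · refine prod_congr rfl fun jj hj => ?_
      rw [extZ_vec h.D0 h.Dq (h.val_lt _ (h.VP u hV h0))
        (h.val_lt _ (h.VS u hV h0 g (mem_range.1 hg) jj (mem_range.1 hj)))]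
    · rfl

/-- The run on the empty stack with zero registers computes the digits of the value. -/
theorem Dag.Good.run {V : ℕ × ℕ → Prop} {val dep eps : ℕ × ℕ → ℕ} (h : d.Good V val dep eps)
    {u : ℕ × ℕ} (hV : V u) :
    ∃ n A, (step d)^[n] (enter d.q d.G u 0, 0, 0, 0) = (0, A, 0, 0) ∧ A < d.q ^ d.N ∧
      (∀ i < d.N, dig d.q A i = dig d.D (val u) i) ∧
      ∀ k < n, d.ok (d.W (dep u) (eps u)) ((step d)^[k] (enter d.q d.G u 0, 0, 0, 0)) := by
  have h1 := h.adds (d.W (dep u) (eps u)) (dep u + 1) u (by omega) hV 0 (by simp)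
    (fun _ => 0) (fun _ => 0) (fun _ => 0)
  rw [num_zero] at h1
  obtain ⟨n, e, hn⟩ := h1.exists_iterate
  refine ⟨n, _, e, num_lt _ _, fun i hi => ?_, hn⟩
  rw [dig_num _ hi, zero_add, vec, ZMod.val_natCast, Nat.mod_eq_of_lt]
  exact (dig_lt h.D0 _ _).trans_le h.Dq

end Vale.Agent.P312
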