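import Vale.Agent.P312.Top

/-! Consequences of the simulation: the exponents. -/

namespace Vale.Agent.P312

open Vale.Agent.Lib.Space

theorem time1_subset_rpow (A : Type) (t : ℕ → ℕ) (ht : ∀ n, n ≤ t n) {e : ℝ} (he : 2 / 5 < e) :
    TIME1 A t ⊆ SPACE A fun n => (t n : ℝ) ^ e :=
  (time1_subset_space A t ht).trans (SPACE_log_subset t he)

theorem sInf_le (A : Type) (K : Set (ℕ → ℕ)) :
    sInf {e : ℝ | 0 ≤ e ∧ ∀ t ∈ K, (∀ n, n ≤ t n) →
      TIME1 A t ⊆ SPACE A fun n => (t n : ℝ) ^ e} ≤ 2 / 5 := by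
  refine le_of_forall_gt_imp_ge_of_dense fun e he => csInf_le ⟨0, fun _ h => h.1⟩ ?_
  exact ⟨by linarith, fun t _ ht => time1_subset_rpow A t ht he⟩

end Vale.Agent.P312
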