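import Vale.Agent.P312.Tape
import Vale.Agent.Lib.Space.Defs

/-!
The numerical machine of a one-tape Turing machine. The states `0` and `1` are new final states
(rejecting and accepting).
-/

namespace Vale.Agent.P312

open Vale.Agent.Lib.Space

variable {A : Type} (M : OneTape A)

/-- Code of a state. -/
noncomputable def eQ (q : M.State) : ℕ := (@Finite.equivFin _ M.finState q : ℕ) + 2

/-- Code of a symbol. -/
noncomputable def eG (a : M.Sym) : ℕ := (@Finite.equivFin _ M.finSym a : ℕ)

/-- Decoding of states. -/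
noncomputable def dQ (n : ℕ) : Option M.State :=
  if h : 2 ≤ n ∧ n - 2 < Nat.card M.State then
    some ((@Finite.equivFin _ M.finState).symm ⟨n - 2, h.2⟩) else none

/-- Decoding of symbols. -/
noncomputable def dG (n : ℕ) : Option M.Sym :=
  if h : n < Nat.card M.Sym then some ((@Finite.equivFin _ M.finSym).symm ⟨n, h⟩) else none

/-- Code of a move. -/
def mvc : Move → ℕ
  | .left => 0
  | .stay => 1
  | .right => 2

open Classical in
/-- The final state for the state `q`. -/
noncomputable def flag (q : M.State) : ℕ := if q ∈ M.accept then 1 else 0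

/-- The transition table. -/
noncomputable def tr (q s : ℕ) : ℕ × ℕ × ℕ :=
  match dG M s with
  | none => (0, 0, 0)
  | some a =>
    match dQ M q with
    | none => if q ≤ 1 then (q, s, 1) else (0, 0, 0)
    | some q' =>
      match M.step q' a with
      | none => (flag M q', s, 1)
      | some (q'', b, m) => (eQ M q'', eG M b, mvc m)

/-- The numerical machine. -/
noncomputable def nm : NM where
  nQ := Nat.card M.State + 2
  nG := Nat.card M.Sym
  nq := fun q s => (tr M q s).1
  wr := fun q s => (tr M q s).2.1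
  mv := fun q s => (tr M q s).2.2

/-- The code of the tape symbol which belongs to a symbol of the input tape. -/
noncomputable def code : InSym A → ℕ
  | .letter a => eG M (M.letter a)
  | _ => eG M M.blank

/-- The initial configuration with the head in the cell `p0`, for a tape given by `I`. -/
def initC (q0 : ℕ) (I : ℕ → ℕ) (p0 : ℕ) : Cfg := (q0, p0, fun p => I (p + 1 - p0))

theorem eQ_lt (q : M.State) : eQ M q < (nm M).nQ := by
  have := (@Finite.equivFin _ M.finState q).2
  simp only [eQ, nm]
  omega

theorem eG_lt (a : M.Sym) : eG M a < (nm M).nG := (@Finite.equivFin _ M.finSym a).2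

theorem two_le_eQ (q : M.State) : 2 ≤ eQ M q := Nat.le_add_left _ _

theorem flag_le (q : M.State) : flag M q ≤ 1 := by
  unfold flag; split_ifs <;> omega

theorem dQ_eQ (q : M.State) : dQ M (eQ M q) = some q := by
  rw [dQ, dif_pos ⟨two_le_eQ M q, by simp [eQ]⟩]
  simp [eQ]

theorem dG_eG (a : M.Sym) : dG M (eG M a) = some a := by
  rw [dG, dif_pos (show eG M a < Nat.card M.Sym from eG_lt M a)]
  simp [eG]

theorem dQ_flag (q : M.State) : dQ M (flag M q) = none := by
  have := flag_le M q
  rw [dQ, dif_neg (by omega)]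

theorem code_lt (s : InSym A) : code M s < (nm M).nG := by
  cases s <;> exact eG_lt M _

theorem nm_wf : (nm M).WF := by
  have h0 : 0 < (nm M).nG := (Nat.zero_le _).trans_lt (eG_lt M M.blank)
  have h2 : 2 ≤ (nm M).nQ := Nat.le_add_left _ _
  have key : ∀ q s, (tr M q s).1 < (nm M).nQ ∧ (tr M q s).2.1 < (nm M).nG ∧ (tr M q s).2.2 ≤ 2 := by
    intro q s
    unfold tr
    split
    · exact ⟨by dsimp only; omega, h0, by simp⟩
    · rename_i a ha
      have hs : s < (nm M).nG := by
        by_contra hc
        rw [dG, dif_neg (show ¬ s < Nat.card M.Sym from hc)] at ha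
        cases ha
      split
      · split_ifs
        · exact ⟨by dsimp only; omega, hs, by simp⟩
        · exact ⟨by dsimp only; omega, h0, by simp⟩
      · rename_i q' _
        split
        · have := flag_le M q'
          exact ⟨by dsimp only; omega, hs, by simp⟩
        · rename_i q'' b m _
          exact ⟨eQ_lt M _, eG_lt M _, by cases m <;> simp [mvc]⟩
  exact ⟨fun q s => (key q s).1, fun q s => (key q s).2.1, fun q s => (key q s).2.2⟩

/-- The table vanishes outside a finite set. -/
theorem tr_eq_zero {q s : ℕ} (h : (nm M).nQ ≤ q ∨ (nm M).nG ≤ s) : tr M q s = (0, 0, 0) := by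
  unfold tr
  split
  · rfl
  · rename_i a ha
    have hs : s < (nm M).nG := by
      by_contra hc
      rw [dG, dif_neg (show ¬ s < Nat.card M.Sym from hc)] at ha
      cases ha
    have hq : Nat.card M.State + 2 ≤ q := h.resolve_right (by omega)
    rw [show dQ M q = none from dif_neg (by omega)]
    exact if_neg (by omega)

theorem initC_ok (x : List A) (p0 : ℕ) :
    (initC (eQ M M.start) (fun i => code M (inAt x i)) p0).Ok (nm M) :=
  ⟨eQ_lt M _, fun _ => code_lt M _⟩

/-- The numerical configuration `d` describes the configuration `c`. -/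
def Rel (p0 : ℕ) (c : M.Conf) (d : Cfg) : Prop :=
  (d.2.1 : ℤ) = c.head + p0 ∧ (∀ p : ℕ, d.2.2 p = eG M (c.tape (p - p0))) ∧
    (d.1 = eQ M c.state ∨ (M.Halted c ∧ d.1 = flag M c.state))

variable {M}

theorem Rel.read {p0 : ℕ} {c : M.Conf} {d : Cfg} (h : Rel M p0 c d) :
    d.2.2 d.2.1 = eG M (c.tape c.head) := by
  rw [h.2.1, h.1, add_sub_cancel_right]

theorem Rel.halted {p0 : ℕ} {c : M.Conf} {d : Cfg} (h : Rel M p0 c d) (hc : M.Halted c) :
    gstep (nm M) d = (flag M c.state, d.2) := by
  have ht : tr M d.1 (d.2.2 d.2.1) = (flag M c.state, d.2.2 d.2.1, 1) := by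
    rw [h.read]
    rcases h.2.2 with e | ⟨-, e⟩
    · rw [e]
      simp only [tr, dG_eG, dQ_eQ]
      rw [show M.step c.state (c.tape c.head) = none from hc]
    · rw [e]
      simp only [tr, dG_eG, dQ_flag]
      rw [if_pos (flag_le M _)]
  simp only [gstep, nm, ht, Nat.add_sub_cancel, Function.update_eq_self]

theorem next_halted {c : M.Conf} (hc : M.Halted c) : M.next c = c := by
  unfold OneTape.next
  rw [show M.step c.state (c.tape c.head) = none from hc]

theorem Rel.step {p0 : ℕ} {c : M.Conf} {d : Cfg} (h : Rel M p0 c d) (hp : 1 ≤ d.2.1) :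
    Rel M p0 (M.next c) (gstep (nm M) d) := by
  rcases e : M.step c.state (c.tape c.head) with _ | ⟨q, b, m⟩
  · rw [h.halted e, next_halted e]
    exact ⟨h.1, h.2.1, Or.inr ⟨e, rfl⟩⟩
  · have hq : d.1 = eQ M c.state := by
      rcases h.2.2 with e' | ⟨e', -⟩
      · exact e'
      · rw [OneTape.Halted, e] at e'
        cases e'
    have ht : tr M d.1 (d.2.2 d.2.1) = (eQ M q, eG M b, mvc m) := by
      rw [h.read, hq]
      simp only [tr, dG_eG, dQ_eQ]
      rw [e]
    have hn : M.next c = ⟨q, Function.update c.tape c.head b, m.app c.head⟩ := by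
      unfold OneTape.next
      rw [e]
    have h1 := h.1
    rw [hn]
    simp only [gstep, nm, ht]
    refine ⟨?_, fun p => ?_, Or.inl rfl⟩
    · cases m <;> simp only [mvc, Move.app] <;> omega
    · simp only [Function.update_apply]
      by_cases hp : p = d.2.1
      · rw [if_pos hp, if_pos (by omega)]
      · rw [if_neg hp, if_neg (by omega), h.2.1]

theorem gstep_iter_pos_ge (N : NM) (c : Cfg) (τ : ℕ) : c.2.1 ≤ ((gstep N)^[τ] c).2.1 + τ := by
  induction τ with
  | zero => exact le_rfl
  | succ τ ih =>
    rw [Function.iterate_succ_apply']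
    simp only [gstep] at ih ⊢
    omega

theorem rel_iter (x : List A) (p0 τ : ℕ) (hτ : τ ≤ p0) : Rel M p0 (M.conf x τ)
    ((gstep (nm M))^[τ] (initC (eQ M M.start) (fun i => code M (inAt x i)) p0)) := by
  induction τ with
  | zero =>
    refine ⟨by simp [initC, OneTape.conf], fun p => ?_, Or.inl rfl⟩
    simp only [initC, OneTape.conf, Function.iterate_zero, id]
    split_ifs with h
    · have e1 : p + 1 - p0 = (p - p0) + 1 := by omega
      have e2 : ((p : ℤ) - p0).toNat = p - p0 := by omega
      rw [e1, e2, inAt]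
      cases x[p - p0]? <;> rfl
    · rw [show p + 1 - p0 = 0 by omega]
      rfl
  | succ τ ih =>
    rw [OneTape.conf, Function.iterate_succ_apply', Function.iterate_succ_apply']
    refine (ih (by omega)).step ?_
    have := gstep_iter_pos_ge (nm M) (initC (eQ M M.start) (fun i => code M (inAt x i)) p0) τ
    simp only [initC] at this ⊢
    omega

theorem conf_halted {x : List A} {τ τ' : ℕ} (h : M.Halted (M.conf x τ)) (hτ : τ ≤ τ') :
    M.conf x τ' = M.conf x τ := by
  obtain ⟨n, rfl⟩ := Nat.exists_eq_add_of_le hτ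
  rw [OneTape.conf, add_comm, Function.iterate_add_apply]
  exact Function.iterate_fixed (next_halted h) n

/-- Soundness: a final state of the numerical machine gives the answer. -/
theorem nm_sound {x : List A} {τ₀ : ℕ} (h₀ : M.Halted (M.conf x τ₀)) {p0 τ : ℕ} (hτ : τ ≤ p0)
    (h : ((gstep (nm M))^[τ] (initC (eQ M M.start) (fun i => code M (inAt x i)) p0)).1 ≤ 1) :
    ((gstep (nm M))^[τ] (initC (eQ M M.start) (fun i => code M (inAt x i)) p0)).1
      = flag M (M.conf x τ₀).state := by
  rcases (rel_iter (M := M) x p0 τ hτ).2.2 with e | ⟨e, e'⟩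
  · have := two_le_eQ M (M.conf x τ).state
    omega
  · rw [e']
    rcases le_total τ τ₀ with h1 | h1
    · rw [conf_halted e h1]
    · rw [conf_halted h₀ h1]

/-- Completeness: for some offset the macro steps reach a final state. -/
theorem nm_complete {x : List A} {τ₀ : ℕ} (h₀ : M.Halted (M.conf x τ₀)) {w T m base : ℕ}
    (hw : 0 < w) (hT : τ₀ + 1 ≤ T) (hb : T ≤ base) (hm : T / w < m) : ∃ o < w,
    ((mac (nm M) w T)^[m] (initC (eQ M M.start) (fun i => code M (inAt x i)) (base + o))).1
      ≤ 1 := by
  set c : ℕ → Cfg := initC (eQ M M.start) fun i => code M (inAt x i) with hc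
  obtain ⟨o, ho, hcnt⟩ := exists_offset hw (fun t => ((gstep (nm M))^[t] (c base)).2.1) (τ₀ + 1)
    (fun t _ => by
      have := (nm_wf M).mv_le ((gstep (nm M))^[t] (c base)).1
        (((gstep (nm M))^[t] (c base)).2.2 ((gstep (nm M))^[t] (c base)).2.1)
      simp only [Function.iterate_succ_apply']
      simp only [gstep] at this ⊢
      omega)
  refine ⟨o, ho, ?_⟩
  have hpos : ∀ t ≤ τ₀ + 1, ((gstep (nm M))^[t] (c (base + o))).2.1
      = ((gstep (nm M))^[t] (c base)).2.1 + o := by
    intro t ht
    have h1 := (rel_iter (M := M) x base t (by omega)).1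
    have h2 := (rel_iter (M := M) x (base + o) t (by omega)).1
    rw [← hc] at h1 h2
    omega
  have hcnt' : cnt w (fun t => ((gstep (nm M))^[t] (c (base + o))).2.1) (τ₀ + 1)
      = cnt w (fun t => ((gstep (nm M))^[t] (c base)).2.1 + o) (τ₀ + 1) := by
    unfold cnt
    congr 1
    refine Finset.filter_congr fun t ht => ?_
    have := Finset.mem_range.1 ht
    simp only [hpos t (by omega), hpos (t + 1) (by omega)]
  have h1 := (rel_iter (M := M) x (base + o) τ₀ (by omega)).halted h₀
  have h2 := (rel_iter (M := M) x (base + o) (τ₀ + 1) (by omega)).halted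
    (by rwa [conf_halted h₀ (Nat.le_succ _)])
  rw [← hc] at h1 h2
  rw [conf_halted h₀ (Nat.le_succ _)] at h2
  have h3 : (gstep (nm M))^[τ₀ + 1] (c (base + o))
      = (flag M (M.conf x τ₀).state, ((gstep (nm M))^[τ₀] (c (base + o))).2) := by
    rw [Function.iterate_succ_apply', h1]
  have h4 : (τ₀ + 1) / w ≤ T / w := Nat.div_le_div_right hT
  rw [mac_iter_halt (H := τ₀ + 1) _ hT (by rw [h2, h3]) (by omega), h3]
  exact flag_le M _

end Vale.Agent.P312
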