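import Mathlib.FieldTheory.Finite.Basic
import Mathlib.Tactic

/-!
Numbers used as vectors of digits, modular products, and the low degree extension.
All functions here are functions of natural numbers, so that they can be run on a counter machine.
-/

namespace Vale.Agent.P312

open Finset

/-- Digit `i` of `X` in base `b`. -/
def dig (b X i : ℕ) : ℕ := X / b ^ i % b

/-- The power `b ^ i`, cut off at `M`. -/
def cpow (M b i : ℕ) : ℕ := min M (b ^ i)

/-- Replace digit `i` of `X` in base `b` by `v`. -/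
def setd (M b X i v : ℕ) : ℕ := X - dig b X i * cpow M b i + v * cpow M b i

/-- The product of `f 0, …, f (n - 1)` modulo `q`. -/
def pmod (q n : ℕ) (f : ℕ → ℕ) : ℕ := if q = 0 then 0 else (∏ i ∈ range n, f i) % q

/-- The inverse modulo the prime `q`. -/
def inv (q x : ℕ) : ℕ := pmod q (q - 2) fun _ => x

/-- The Lagrange basis polynomial of the node `c` among `0, …, D - 1`, evaluated at `x`. -/
def lag (q D c x : ℕ) : ℕ :=
  pmod q D fun c' => if c' = c then 1 else (x + q - c') * inv q (c + q - c')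

/-- The weight of the grid point `b` at the point `inv l • X`. -/
def wt (q D N b l X : ℕ) : ℕ := pmod q N fun i => lag q D (dig D b i) (inv q l * dig q X i)

/-- The low degree extension of `f` at the point `(inv l • X, inv m • Y)`. -/
def ext (q D N DN : ℕ) (f : ℕ → ℕ → ℕ) (l X m Y : ℕ) : ℕ :=
  ∑ b ∈ range DN, ∑ c ∈ range DN, f b c * (wt q D N b l X * wt q D N c m Y)

/-! ### Digits -/

theorem cpow_eq {M b i : ℕ} (h : b ^ i ≤ M) : cpow M b i = b ^ i := min_eq_right h

theorem cpow_le (M b i : ℕ) : cpow M b i ≤ M := min_le_left _ _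

theorem dig_lt {b : ℕ} (hb : 0 < b) (X i : ℕ) : dig b X i < b := Nat.mod_lt _ hb

theorem dig_le (b X i : ℕ) : dig b X i ≤ X := (Nat.mod_le _ _).trans (Nat.div_le_self _ _)

theorem dig_zero (b X : ℕ) : dig b X 0 = X % b := by simp [dig]

theorem dig_succ (b X i : ℕ) : dig b X (i + 1) = dig b (X / b) i := by
  simp [dig, pow_succ', Nat.div_div_eq_div_mul]

@[simp] theorem dig_zero_left (b i : ℕ) : dig b 0 i = 0 := by simp [dig]

/-- The number with the digits `f 0, …, f (N - 1)` in base `b`. -/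
def ofd (b : ℕ) : ℕ → (ℕ → ℕ) → ℕ
  | 0, _ => 0
  | N + 1, f => f 0 + b * ofd b N fun i => f (i + 1)

theorem ofd_lt {b : ℕ} : ∀ (N : ℕ) (f : ℕ → ℕ), (∀ i < N, f i < b) → ofd b N f < b ^ N
  | 0, _, _ => by simp [ofd]
  | N + 1, f, h => by
    have h0 := h 0 (by omega)
    have h1 := ofd_lt N (fun i => f (i + 1)) fun i hi => h (i + 1) (by omega)
    rw [ofd, pow_succ']
    nlinarith

theorem dig_ofd {b : ℕ} : ∀ (N : ℕ) (f : ℕ → ℕ), (∀ i < N, f i < b) → ∀ i < N,
    dig b (ofd b N f) i = f i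
  | 0, _, _, _, hi => by omega
  | N + 1, f, h, 0, _ => by
    rw [dig_zero, ofd, Nat.add_mul_mod_self_left, Nat.mod_eq_of_lt (h 0 (by omega))]
  | N + 1, f, h, i + 1, hi => by
    have h0 := h 0 (by omega)
    rw [dig_succ, ofd, Nat.add_mul_div_left _ _ (by omega), Nat.div_eq_of_lt h0, zero_add]
    exact dig_ofd N (fun i => f (i + 1)) (fun i hi => h (i + 1) (by omega)) i (by omega)

theorem ofd_congr {b : ℕ} : ∀ (N : ℕ) (f g : ℕ → ℕ), (∀ i < N, f i = g i) →
    ofd b N f = ofd b N g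
  | 0, _, _, _ => rfl
  | N + 1, f, g, h => by
    rw [ofd, ofd, h 0 (by omega), ofd_congr N (fun i => f (i + 1)) (fun i => g (i + 1))
      fun i hi => h (i + 1) (by omega)]

theorem ofd_dig {b : ℕ} : ∀ (N X : ℕ), X < b ^ N → ofd b N (dig b X) = X
  | 0, X, h => by simp at h; simp [ofd, h]
  | N + 1, X, h => by
    have hb : 0 < b := by
      rcases Nat.eq_zero_or_pos b with rfl | hb
      · simp at h
      · exact hb
    rw [ofd, dig_zero]
    have : (fun i => dig b X (i + 1)) = dig b (X / b) := funext fun i => dig_succ b X i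
    rw [this, ofd_dig N (X / b) (by rwa [Nat.div_lt_iff_lt_mul hb, ← pow_succ])]
    exact Nat.mod_add_div X b

theorem eq_of_dig {b N X Y : ℕ} (hX : X < b ^ N) (hY : Y < b ^ N)
    (h : ∀ i < N, dig b X i = dig b Y i) : X = Y := by
  rw [← ofd_dig N X hX, ← ofd_dig N Y hY]
  exact ofd_congr N _ _ h

@[simp] theorem ofd_zero (b : ℕ) : ∀ N : ℕ, ofd b N (fun _ => 0) = 0
  | 0 => rfl
  | N + 1 => by simp [ofd, ofd_zero b N]

theorem ofd_update {b : ℕ} : ∀ (N : ℕ) (f : ℕ → ℕ) (i v : ℕ), i < N →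
    ofd b N (Function.update f i v) + f i * b ^ i = ofd b N f + v * b ^ i
  | 0, _, _, _, hi => by omega
  | N + 1, f, 0, v, _ => by
    have : (fun i => Function.update f 0 v (i + 1)) = fun i => f (i + 1) := by
      funext i; simp
    simp only [ofd, this, Function.update_self]
    ring
  | N + 1, f, i + 1, v, hi => by
    have : (fun j => Function.update f (i + 1) v (j + 1))
        = Function.update (fun j => f (j + 1)) i v := by
      funext j
      by_cases h : j = i
      · subst h; simp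
      · simp [h]
    have ih := ofd_update (b := b) N (fun j => f (j + 1)) i v (by omega)
    simp only [ofd, this, Function.update_of_ne (show 0 ≠ i + 1 by omega), pow_succ']
    nlinarith

theorem le_ofd {b : ℕ} (N : ℕ) (f : ℕ → ℕ) (i : ℕ) (hi : i < N) : f i * b ^ i ≤ ofd b N f := by
  have := ofd_update (b := b) N f i 0 hi
  omega

theorem setd_ofd {M b N : ℕ} (f : ℕ → ℕ) (hf : ∀ i < N, f i < b) {i : ℕ} (hi : i < N)
    (hM : b ^ N ≤ M) (v : ℕ) :
    setd M b (ofd b N f) i v = ofd b N (Function.update f i v) := by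
  have hb : 0 < b := by have := hf i hi; omega
  have h1 : b ^ i ≤ M := (Nat.pow_le_pow_right hb hi.le).trans hM
  have h2 := ofd_update (b := b) N f i v hi
  have h3 := le_ofd (b := b) N f i hi
  rw [setd, cpow_eq h1, dig_ofd N f hf i hi]
  omega

theorem setd_le (M b X i v : ℕ) : setd M b X i v ≤ X + v * M :=
  add_le_add (Nat.sub_le _ _) (Nat.mul_le_mul_left _ (cpow_le _ _ _))

/-! ### Casts to `ZMod q` -/

section cast

variable {q : ℕ} [hq : Fact q.Prime]

theorem cast_pmod (n : ℕ) (f : ℕ → ℕ) :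
    ((pmod q n f : ℕ) : ZMod q) = ∏ i ∈ range n, (f i : ZMod q) := by
  rw [pmod, if_neg hq.out.ne_zero, ZMod.natCast_mod, Nat.cast_prod]

theorem cast_inv (x : ℕ) (hx : (x : ZMod q) ≠ 0) : ((inv q x : ℕ) : ZMod q) = (x : ZMod q)⁻¹ := by
  rw [inv, cast_pmod, prod_const, card_range]
  have h2 := hq.out.two_le
  have h := ZMod.pow_card_sub_one_eq_one hx
  refine eq_inv_of_mul_eq_one_left ?_
  rw [← pow_succ, show q - 2 + 1 = q - 1 by omega, h]

/-- The Lagrange basis polynomial over `ZMod q`. -/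
noncomputable def lagZ (D c : ℕ) (x : ZMod q) : ZMod q :=
  ∏ c' ∈ range D, if c' = c then 1 else (x - c') * ((c : ZMod q) - c')⁻¹

theorem cast_ne {D c c' : ℕ} (hD : D ≤ q) (hc : c < D) (hc' : c' < D) (h : c' ≠ c) :
    (c : ZMod q) - c' ≠ 0 := by
  rw [sub_ne_zero]
  intro e
  rw [ZMod.natCast_eq_natCast_iff', Nat.mod_eq_of_lt (by omega), Nat.mod_eq_of_lt (by omega)] at e
  exact h e.symm

theorem cast_add_sub (x c' : ℕ) (h : c' ≤ q) : ((x + q - c' : ℕ) : ZMod q) = x - c' := by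
  rw [Nat.cast_sub (by omega)]
  simp

theorem cast_lag {D c : ℕ} (hD : D ≤ q) (hc : c < D) (x : ℕ) :
    ((lag q D c x : ℕ) : ZMod q) = lagZ D c (x : ZMod q) := by
  rw [lag, cast_pmod, lagZ]
  refine prod_congr rfl fun c' hc' => ?_
  rw [mem_range] at hc'
  split_ifs with h
  · simp
  · have h1 := cast_add_sub (q := q) c c' (by omega)
    rw [Nat.cast_mul, cast_add_sub x c' (by omega), cast_inv _ (by
      rw [h1]; exact cast_ne hD hc hc' h), h1]

theorem lagZ_cast {D c c₀ : ℕ} (hD : D ≤ q) (hc : c < D) (hc₀ : c₀ < D) :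
    lagZ D c (c₀ : ZMod q) = if c = c₀ then 1 else 0 := by
  rw [lagZ]
  split_ifs with h
  · subst h
    refine prod_eq_one fun c' hc' => ?_
    rw [mem_range] at hc'
    split_ifs with h
    · rfl
    · exact mul_inv_cancel₀ (cast_ne hD hc hc' h)
  · refine prod_eq_zero (mem_range.2 hc₀) ?_
    rw [if_neg (Ne.symm h)]
    simp

/-- The weight of the grid point `b` at the point `X`. -/
noncomputable def wtZ (D N b : ℕ) (X : ℕ → ZMod q) : ZMod q :=
  ∏ i ∈ range N, lagZ D (dig D b i) (X i)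

/-- The low degree extension over `ZMod q`. -/
noncomputable def extZ (D N : ℕ) (f : ℕ → ℕ → ℕ) (X Y : ℕ → ZMod q) : ZMod q :=
  ∑ b ∈ range (D ^ N), ∑ c ∈ range (D ^ N), (f b c : ZMod q) * (wtZ D N b X * wtZ D N c Y)

/-- The register with content `f`. -/
def num (N : ℕ) (f : ℕ → ZMod q) : ℕ := ofd q N fun i => (f i).val

theorem num_lt (N : ℕ) (f : ℕ → ZMod q) : num N f < q ^ N :=
  ofd_lt N _ fun i _ => ZMod.val_lt (f i)

theorem dig_num {N : ℕ} (f : ℕ → ZMod q) {i : ℕ} (hi : i < N) : dig q (num N f) i = (f i).val :=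
  dig_ofd N _ (fun i _ => ZMod.val_lt (f i)) i hi

omit hq in
theorem num_congr {N : ℕ} {f g : ℕ → ZMod q} (h : ∀ i < N, f i = g i) : num N f = num N g :=
  ofd_congr N _ _ fun i hi => by rw [h i hi]

theorem num_zero (N : ℕ) : num N (fun _ => (0 : ZMod q)) = 0 := by simp [num]

theorem setd_num {M N : ℕ} (f : ℕ → ZMod q) {i : ℕ} (hi : i < N) (hM : q ^ N ≤ M) (v : ZMod q) :
    setd M q (num N f) i v.val = num N (Function.update f i v) := by
  rw [num, setd_ofd _ (fun i _ => ZMod.val_lt (f i)) hi hM]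
  refine ofd_congr N _ _ fun j _ => ?_
  by_cases h : j = i
  · subst h; simp
  · simp [h]

theorem cast_wt {D N : ℕ} (hD0 : 0 < D) (hD : D ≤ q) (b l : ℕ) (hl : (l : ZMod q) ≠ 0)
    (f : ℕ → ZMod q) :
    ((wt q D N b l (num N f) : ℕ) : ZMod q) = wtZ D N b fun i => (l : ZMod q)⁻¹ * f i := by
  rw [wt, cast_pmod, wtZ]
  refine prod_congr rfl fun i hi => ?_
  rw [mem_range] at hi
  rw [cast_lag hD (dig_lt hD0 _ _), Nat.cast_mul, cast_inv l hl, dig_num f hi, ZMod.natCast_val,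
    ZMod.cast_id', id]

theorem cast_ext {D N : ℕ} (hD0 : 0 < D) (hD : D ≤ q) (F : ℕ → ℕ → ℕ) (l m : ℕ)
    (hl : (l : ZMod q) ≠ 0) (hm : (m : ZMod q) ≠ 0) (f g : ℕ → ZMod q) :
    ((ext q D N (D ^ N) F l (num N f) m (num N g) : ℕ) : ZMod q) =
      extZ D N F (fun i => (l : ZMod q)⁻¹ * f i) fun i => (m : ZMod q)⁻¹ * g i := by
  rw [ext, extZ]
  push_cast
  refine sum_congr rfl fun b _ => sum_congr rfl fun c _ => ?_
  rw [cast_wt hD0 hD b l hl, cast_wt hD0 hD c m hm]

/-- The digit vector of a grid point. -/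
def vec (q D b : ℕ) : ℕ → ZMod q := fun i => (dig D b i : ℕ)

theorem wtZ_vec {D N b b₀ : ℕ} (hD0 : 0 < D) (hD : D ≤ q) (hb : b < D ^ N) (hb₀ : b₀ < D ^ N) :
    wtZ D N b (vec q D b₀) = if b = b₀ then 1 else 0 := by
  rw [wtZ]
  split_ifs with h
  · subst h
    refine prod_eq_one fun i _ => ?_
    rw [vec, lagZ_cast hD (dig_lt hD0 _ _) (dig_lt hD0 _ _), if_pos rfl]
  · have : ∃ i < N, dig D b i ≠ dig D b₀ i := by
      by_contra hc
      push Not at hc
      exact h (eq_of_dig hb hb₀ hc)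
    obtain ⟨i, hi, hne⟩ := this
    refine prod_eq_zero (mem_range.2 hi) ?_
    rw [vec, lagZ_cast hD (dig_lt hD0 _ _) (dig_lt hD0 _ _), if_neg hne]

theorem extZ_vec {D N b₀ c₀ : ℕ} (hD0 : 0 < D) (hD : D ≤ q) (hb₀ : b₀ < D ^ N) (hc₀ : c₀ < D ^ N)
    (F : ℕ → ℕ → ℕ) : extZ D N F (vec q D b₀) (vec q D c₀) = (F b₀ c₀ : ZMod q) := by
  rw [extZ, sum_eq_single_of_mem b₀ (mem_range.2 hb₀), sum_eq_single_of_mem c₀ (mem_range.2 hc₀)]
  · rw [wtZ_vec hD0 hD hb₀ hb₀, wtZ_vec hD0 hD hc₀ hc₀]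
    simp
  · intro c hc hne
    rw [wtZ_vec hD0 hD (mem_range.1 hc) hc₀, if_neg hne]
    simp
  · intro b hb hne
    refine sum_eq_zero fun c _ => ?_
    rw [wtZ_vec hD0 hD (mem_range.1 hb) hb₀, if_neg hne]
    simp

end cast

end Vale.Agent.P312
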