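import Vale.Agent.P312.Tape
import Vale.Agent.P312.DagRun

/-!
The graph of a one-tape computation. The node `(0, l + 1)` is the record of the last `a * k + 1`
events after `l * k` macro steps; the node `(j + 1, e + 1)` is the content of the block `j` after
`e * (a * k)` macro steps.
-/

namespace Vale.Agent.P312

open Finset

/-- The check of a node without guess. -/
def triv (N g jj v : ℕ) : ℕ := if g / N = 0 then (if jj = 0 then v else 1) else 0

/-- The events of the current epoch: `n` events from the record `X`, then the guess `gg`. -/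
def evs (D L n X gg s : ℕ) : ℕ := if s < n then dig D X (L - n + s) else dig D gg (s - n)

/-- The check number `jj` of the guess `gg` for the digit `i` of a record. -/
def chkR (M : NM) (Mx D k L T n i gg jj X Y : ℕ) : ℕ :=
  if (visit M Mx D (L + 1) T (dig D gg jj / M.nQ / (L + 1)) (dig D gg jj)
      (replay M Mx D (L + 1) T (dig D gg jj / M.nQ / (L + 1)) (evs D L n X gg) (n + jj) Y)).1
      = dig D gg (jj + 1) then
    (if jj = 0 then
      (if dig D gg 0 = dig D X L then
        (if i + k ≤ L then dig D X (i + k) else dig D gg (i + k - L)) else 0) else 1)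
  else 0

/-- The primary child. -/
def dagP (a : ℕ) (u : ℕ × ℕ) : ℕ × ℕ :=
  if u.1 = 0 then (0, u.2 - 1) else if u.2 = 1 then (0, 0) else (0, (u.2 - 1) * a + 1)

/-- The secondary children. -/
def dagS (nQ D a N : ℕ) (u : ℕ × ℕ) (g jj : ℕ) : ℕ × ℕ :=
  if u.1 = 0 then
    (if u.2 = 1 then (0, 0) else (dig D (g / N) jj / nQ / N + 1, (u.2 - 2) / a + 1))
  else (u.1, u.2 - 1)

/-- The checks. -/
def dagChk (M : NM) (Mx D k a T e0 : ℕ) (tp0 : ℕ → ℕ) (u : ℕ × ℕ) (g jj X Y : ℕ) : ℕ :=
  if u.1 = 0 then
    (if u.2 = 1 then triv (a * k + 1) g jj e0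
    else chkR M Mx D k (a * k) T ((u.2 - 2) % a * k) (g % (a * k + 1)) (g / (a * k + 1)) jj X Y)
  else if u.2 = 1 then triv (a * k + 1) g jj (tp0 ((u.1 - 1) * (a * k + 1) + g % (a * k + 1)))
  else triv (a * k + 1) g jj (dig D (replay M Mx D (a * k + 1) T (u.1 - 1) (dig D X) (a * k) Y)
    (g % (a * k + 1)))

/-- The graph of the computation. -/
def mkDag (M : NM) (Mx D q k a T e0 : ℕ) (tp0 : ℕ → ℕ) : Dag where
  q := q
  N := a * k + 1
  D := D
  DN := cpow Mx D (a * k + 1)
  G := (a * k + 1) * cpow Mx D (k + 1)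
  J := k
  M := Mx
  P := dagP a
  S := dagS M.nQ D a (a * k + 1)
  chk := dagChk M Mx D k a T e0 tp0

/-- The event after `s` macro steps. -/
def ev (M : NM) (w T : ℕ) (c : Cfg) (s : ℕ) : ℕ := evc M ((mac M w T)^[s] c)

/-- The values of the nodes. -/
def dagVal (M : NM) (D k a T : ℕ) (c : Cfg) (u : ℕ × ℕ) : ℕ :=
  if u.2 = 0 then 0 else if u.1 = 0 then
    ofd D (a * k + 1) fun t => ev M (a * k + 1) T c ((u.2 - 1) * k + t - a * k)
  else blkc D (a * k + 1) (u.1 - 1) ((mac M (a * k + 1) T)^[(u.2 - 1) * (a * k)] c)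

/-- The valid nodes. -/
def dagV (q a lf : ℕ) (u : ℕ × ℕ) : Prop :=
  u.1 ≤ q ∧ u.2 ≤ lf + 1 ∧ (u.1 ≠ 0 → (u.2 - 1) * a ≤ lf)

/-- Depth of a node. -/
def dagDep (a : ℕ) (u : ℕ × ℕ) : ℕ :=
  if u.2 = 0 then 0 else if u.1 = 0 then 2 * u.2 else 2 * ((u.2 - 1) * a) + 3

/-- Number of nested guesses. -/
def dagEps (a : ℕ) (u : ℕ × ℕ) : ℕ :=
  if u.2 = 0 then 0 else if u.1 = 0 then (if u.2 = 1 then 1 else (u.2 - 2) / a + 2) else u.2

theorem sum_triv {N K k i : ℕ} (hK : 0 < K) (hk : 0 < k) (hi : i < N) (v : ℕ → ℕ)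
    (F : ℕ → ℕ → ℕ) (hF : ∀ g jj, F g jj = triv N g jj (v g)) :
    (∑ g ∈ range (N * K), if g % N = i then ∏ jj ∈ range k, F g jj else 0) = v i := by
  obtain ⟨k, rfl⟩ : ∃ k', k = k' + 1 := ⟨k - 1, by omega⟩
  rw [sum_eq_single_of_mem i (mem_range.2 (by nlinarith))]
  · rw [if_pos (Nat.mod_eq_of_lt hi), prod_range_succ']
    simp [hF, triv, Nat.div_eq_of_lt hi]
  · intro g _ hg
    split_ifs with h
    · refine prod_eq_zero (mem_range.2 (Nat.succ_pos k)) ?_
      rw [hF, triv, if_neg]
      intro h0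
      apply hg
      rw [← Nat.div_add_mod g N, h0, h]
      simp
    · rfl

section

variable {M : NM} {Mx D k a T lf : ℕ} {c : Cfg}

/-- If the first digits of the guess are right, the check computes the next event. -/
theorem chkR_visit (hM : M.WF) (hc : c.Ok M) (hD : M.nG ≤ D) (hMx : D ^ (a * k + 1) ≤ Mx)
    (ha : 0 < a) (l gg jj X : ℕ)
    (hX : ∀ t ≤ a * k, dig D X t = ev M (a * k + 1) T c (l * k + t - a * k))
    (hg : ∀ t ≤ jj, dig D gg t = ev M (a * k + 1) T c (l * k + t)) :
    (visit M Mx D (a * k + 1) T (dig D gg jj / M.nQ / (a * k + 1)) (dig D gg jj)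
      (replay M Mx D (a * k + 1) T (dig D gg jj / M.nQ / (a * k + 1))
        (evs D (a * k) (l % a * k) X gg) (l % a * k + jj)
        (blkc D (a * k + 1) (dig D gg jj / M.nQ / (a * k + 1))
          ((mac M (a * k + 1) T)^[l / a * (a * k)] c)))).1
      = ev M (a * k + 1) T c (l * k + jj + 1) := by
  have h1 : l / a * (a * k) + l % a * k = l * k := by
    conv_rhs => rw [← Nat.div_add_mod l a]
    ring
  have h2 : l % a * k ≤ a * k := Nat.mul_le_mul_right _ (Nat.mod_lt _ ha).le
  rw [replay_eq hM hc hD (by omega) hMx]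
  · rw [hg jj le_rfl, ← add_assoc, h1, ev, visit_fst hM (hc.mac_iter hM _ _ _) hD (by omega) hMx,
      ev, Function.iterate_succ_apply']
  · intro s hs
    rw [evs]
    split_ifs with h
    · rw [hX _ (by omega), ev]
      congr 2
      omega
    · rw [hg _ (by omega), ev]
      congr 2
      omega

theorem ident_R (hM : M.WF) (hc : c.Ok M) (hD : M.nG ≤ D) (hMx : D ^ (a * k + 1) ≤ Mx)
    (ha : 0 < a) (hk : 0 < k) (l : ℕ) (hev : ∀ s ≤ (l + 1) * k, ev M (a * k + 1) T c s < D)
    {i : ℕ} (hi : i < a * k + 1) (X : ℕ)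
    (hX : ∀ t ≤ a * k, dig D X t = ev M (a * k + 1) T c (l * k + t - a * k)) :
    (∑ g ∈ range ((a * k + 1) * D ^ (k + 1)), if g % (a * k + 1) = i then ∏ jj ∈ range k,
      chkR M Mx D k (a * k) T (l % a * k) (g % (a * k + 1)) (g / (a * k + 1)) jj X
        (blkc D (a * k + 1) (dig D (g / (a * k + 1)) jj / M.nQ / (a * k + 1))
          ((mac M (a * k + 1) T)^[l / a * (a * k)] c)) else 0)
      = ev M (a * k + 1) T c ((l + 1) * k + i - a * k) := by
  set G := ofd D (k + 1) fun t => ev M (a * k + 1) T c (l * k + t) with hG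
  have hlt : ∀ t < k + 1, ev M (a * k + 1) T c (l * k + t) < D := fun t ht =>
    hev _ (by rw [add_mul]; omega)
  have hG1 : G < D ^ (k + 1) := ofd_lt _ _ hlt
  have hG2 : ∀ t ≤ k, dig D G t = ev M (a * k + 1) T c (l * k + t) := fun t ht =>
    dig_ofd _ _ hlt t (by omega)
  have hN : 0 < a * k + 1 := by omega
  have e1 : (i + (a * k + 1) * G) % (a * k + 1) = i := by
    rw [Nat.add_mul_mod_self_left, Nat.mod_eq_of_lt hi]
  have e2 : (i + (a * k + 1) * G) / (a * k + 1) = G := by
    rw [Nat.add_mul_div_left _ _ hN, Nat.div_eq_of_lt hi, zero_add]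
  rw [sum_eq_single_of_mem (i + (a * k + 1) * G) (mem_range.2 (by nlinarith))]
  · rw [if_pos e1, e1, e2]
    obtain ⟨k', rfl⟩ : ∃ k', k = k' + 1 := ⟨k - 1, by omega⟩
    rw [prod_range_succ', prod_eq_one, one_mul]
    · rw [chkR, if_pos, if_pos rfl, if_pos]
      · split_ifs with h
        · rw [hX _ h]
          congr 1
          rw [add_mul]; omega
        · rw [hG2 _ (by omega)]
          congr 1
          rw [add_mul]; omega
      · rw [hG2 0 (by omega), hX _ le_rfl]
        simp
      · rw [chkR_visit hM hc hD hMx ha l G 0 X hX fun t ht => hG2 t (by omega), hG2 _ (by omega)]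
    · intro jj hj
      have hj' := mem_range.1 hj
      rw [chkR, if_pos, if_neg (by omega)]
      rw [chkR_visit hM hc hD hMx ha l G (jj + 1) X hX fun t ht => hG2 t (by omega),
        hG2 _ (by omega), add_assoc]
  · intro g hg hne
    split_ifs with h
    swap
    · rfl
    have hg1 : g / (a * k + 1) < D ^ (k + 1) := by
      rw [Nat.div_lt_iff_lt_mul hN, mul_comm]
      exact mem_range.1 hg
    have hex : ∃ t, t < k + 1 ∧ dig D (g / (a * k + 1)) t ≠ dig D G t := by
      by_contra hc'
      push Not at hc'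
      apply hne
      rw [← eq_of_dig hg1 hG1 hc', ← h, add_comm, Nat.div_add_mod]
    classical
    have hf := Nat.find_spec hex
    have hmin : ∀ t < Nat.find hex, dig D (g / (a * k + 1)) t = ev M (a * k + 1) T c (l * k + t) := by
      intro t ht
      have := Nat.find_min hex ht
      rw [← hG2 t (by omega)]
      by_contra hc'
      exact this ⟨by omega, hc'⟩
    rcases e : Nat.find hex with _ | t
    · rw [e] at hf
      refine prod_eq_zero (mem_range.2 hk) ?_
      rw [chkR]
      split_ifs with h1 h2 h3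
      · exfalso
        apply hf.2
        rw [h3, hX _ le_rfl, hG2 0 (by omega)]
        simp
      · exfalso
        apply hf.2
        rw [h3, hX _ le_rfl, hG2 0 (by omega)]
        simp
      all_goals first | rfl | contradiction
    · rw [e] at hf hmin
      refine prod_eq_zero (mem_range.2 (show t < k by omega)) ?_
      rw [chkR, if_neg]
      rw [chkR_visit hM hc hD hMx ha l _ t X hX fun s hs => hmin s (by omega), add_assoc,
        ← hG2 _ (by omega)]
      exact hf.2.symm

theorem mkDag_good {q : ℕ} (hM : M.WF) (hc : c.Ok M) (hD : M.nG ≤ D) (ha : 0 < a) (hk : 0 < k)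
    (hev : ∀ s ≤ lf * k, ev M (a * k + 1) T c s < D) (hDq : D ≤ q) (hMx : q ^ (a * k + 1) ≤ Mx)
    (h6 : 6 ≤ q) (hlf : lf + 1 ≤ q) (hdeg : k * ((a * k + 1) * D) < q - 1) :
    (mkDag M Mx D q k a T (evc M c) c.2.2).Good (dagV q a lf) (dagVal M D k a T c) (dagDep a)
      (dagEps a) := by
  have hD0 : 0 < D := by have := hev 0 (Nat.zero_le _); omega
  have hka : k ≤ a * k := Nat.le_mul_of_pos_left _ ha
  have hMx1 : D ^ (a * k + 1) ≤ Mx := (Nat.pow_le_pow_left hDq _).trans hMx
  have hMx2 : D ^ (k + 1) ≤ Mx := (Nat.pow_le_pow_right hD0 (by omega)).trans hMx1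
  have hdeg1 : (a * k + 1) * D ≤ k * ((a * k + 1) * D) := Nat.le_mul_of_pos_left _ hk
  have hRlt : ∀ z, z ≤ lf → ∀ t < a * k + 1, ev M (a * k + 1) T c (z * k + t - a * k) < D := by
    intro z hz t ht
    have : z * k ≤ lf * k := Nat.mul_le_mul_right _ hz
    exact hev _ (by omega)
  have hR : ∀ z, z ≤ lf → ∀ t ≤ a * k, dig D (dagVal M D k a T c (0, z + 1)) t
      = ev M (a * k + 1) T c (z * k + t - a * k) := by
    intro z hz t ht
    simp only [dagVal, Nat.add_eq_zero_iff, one_ne_zero, and_false, if_false, if_true,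
      Nat.add_sub_cancel]
    exact dig_ofd _ _ (hRlt z hz) t (by omega)
  refine
    { D0 := hD0
      Dq := hDq
      DN := cpow_eq hMx1
      M := hMx
      N0 := Nat.succ_pos _
      six := h6
      Jq := ?_
      deg1 := hdeg1.trans_lt hdeg
      deg := hdeg
      small := fun u hu => ⟨hu.1, hu.2.1.trans hlf⟩
      VP := ?_
      VS := ?_
      depP := ?_
      epsP := ?_
      depS := ?_
      epsS := ?_
      eps1 := ?_
      val_lt := ?_
      val0 := fun u hu => if_pos hu
      ident := ?_ }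
  · have : k ≤ k * ((a * k + 1) * D) := Nat.le_mul_of_pos_right _ (by positivity)
    show k ≤ q
    omega
  · rintro ⟨y, z⟩ ⟨h1, h2, h3⟩ h0
    simp only [mkDag, dagP, dagV] at *
    split_ifs with h4 h5
    · simp only [ne_eq, not_true_eq_false, false_imp_iff, and_true]
      omega
    · simp
    · have := h3 h4
      simp only [ne_eq, not_true_eq_false, false_imp_iff, and_true]
      omega
  · rintro ⟨y, z⟩ ⟨h1, h2, h3⟩ h0 g _ jj _
    simp only [mkDag, dagS, dagV] at *
    split_ifs with h4 h5
    · simp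
    · have e1 := dig_lt hD0 (g / (a * k + 1)) jj
      have e2 : dig D (g / (a * k + 1)) jj / M.nQ / (a * k + 1) ≤ dig D (g / (a * k + 1)) jj :=
        (Nat.div_le_self _ _).trans (Nat.div_le_self _ _)
      have e3 : (z - 2) / a * a ≤ z - 2 := Nat.div_mul_le_self _ _
      have e4 : (z - 2) / a ≤ z - 2 := Nat.div_le_self _ _
      simp only [Nat.add_sub_cancel]
      omega
    · have e1 := h3 h4
      have e2 : (z - 1 - 1) * a ≤ (z - 1) * a := Nat.mul_le_mul_right _ (by omega)
      dsimp only
      omega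
  · rintro ⟨y, z⟩ ⟨h1, h2, h3⟩ h0
    simp only [mkDag, dagP, dagDep] at *
    by_cases h4 : y = 0
    · simp only [h4, if_true, if_neg h0]
      split_ifs <;> omega
    · by_cases h5 : z = 1
      · simp [h4, h5]
      · simp [h4, h5, h0]
        omega
  · rintro ⟨y, z⟩ ⟨h1, h2, h3⟩ h0
    simp only [mkDag, dagP, dagEps] at *
    by_cases h4 : y = 0
    · simp only [h4, if_true, if_neg h0]
      have : (z - 1 - 2) / a ≤ (z - 2) / a := Nat.div_le_div_right (by omega)
      generalize (z - 1 - 2) / a = x at *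
      generalize (z - 2) / a = x' at *
      split_ifs <;> omega
    · by_cases h5 : z = 1
      · simp [h4, h5]
      · simp only [h4, h5, h0, if_false, if_true]
        have e1 : ((z - 1) * a + 1 - 2) / a < z - 1 := by
          rw [Nat.div_lt_iff_lt_mul ha]
          have : 0 < (z - 1) * a := Nat.mul_pos (by omega) ha
          omega
        split_ifs <;> omega
  · rintro ⟨y, z⟩ ⟨h1, h2, h3⟩ h0 g _ jj _
    simp only [mkDag, dagS, dagDep] at *
    by_cases h4 : y = 0
    · by_cases h5 : z = 1
      · simp [h4, h5]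
      · have e3 : (z - 2) / a * a ≤ z - 2 := Nat.div_mul_le_self _ _
        simp [h4, h5, h0]
        omega
    · simp only [h4, h0, if_false]
      have e2 : (z - 1 - 1) * a + a ≤ (z - 1) * a ∨ z - 1 = 0 := by
        rcases Nat.eq_zero_or_pos (z - 1) with h | h
        · exact Or.inr h
        · left
          rw [← add_one_mul]
          exact Nat.mul_le_mul_right _ (by omega)
      split_ifs <;> omega
  · rintro ⟨y, z⟩ ⟨h1, h2, h3⟩ h0 g _ jj _
    simp only [mkDag, dagS, dagEps] at *
    by_cases h4 : y = 0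
    · by_cases h5 : z = 1
      · simp [h4, h5]
      · simp [h4, h5, h0]
    · simp only [h4, h0, if_false]
      split_ifs <;> omega
  · rintro ⟨y, z⟩ _ h0
    simp only [dagEps] at *
    generalize (z - 2) / a = x' at *
    split_ifs <;> omega
  · rintro ⟨y, z⟩ ⟨h1, h2, h3⟩
    simp only [mkDag, dagVal] at *
    split_ifs with h4 h5
    · positivity
    · exact ofd_lt _ _ (hRlt _ (by omega))
    · exact blkc_lt (hc.mac_iter hM _ _ _) hD _
  · rintro ⟨y, z⟩ ⟨h1, h2, h3⟩ h0 i hi
    simp only [mkDag, cpow_eq hMx2] at *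
    obtain ⟨z, rfl⟩ : ∃ z', z = z' + 1 := ⟨z - 1, by omega⟩
    rcases y with _ | j
    · rw [hR z (by omega) i (by omega)]
      rcases z with _ | l
      · rw [sum_triv (by positivity) hk hi (fun _ => evc M c) _ (fun g jj => by simp [dagChk])]
        rw [zero_mul, zero_add, Nat.sub_eq_zero_of_le (by omega)]
        rfl
      · rw [← ident_R hM hc hD hMx1 ha hk l (fun s hs => hev s
          (hs.trans (Nat.mul_le_mul_right _ (by omega)))) hi _ (hR l (by omega))]
        refine sum_congr rfl fun g _ => ?_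
        split_ifs
        · refine prod_congr rfl fun jj _ => ?_
          simp [dagChk, dagP, dagS, dagVal]
        · rfl
    · rcases z with _ | e
      · rw [sum_triv (by positivity) hk hi (fun g => c.2.2 (j * (a * k + 1) + g % (a * k + 1))) _
          (fun g jj => by simp [dagChk]), Nat.mod_eq_of_lt hi]
        simp only [dagVal, zero_add, one_ne_zero, if_false, Nat.add_eq_zero_iff, and_false,
          Nat.add_sub_cancel, Nat.sub_self, zero_mul, Function.iterate_zero, id]
        exact dig_blkc hc hD j hi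
      · have e1 := h3 (by omega)
        simp only [Nat.add_sub_cancel] at e1
        rw [sum_triv (by positivity) hk hi (fun g => dig D (replay M Mx D (a * k + 1) T j
          (dig D (dagVal M D k a T c (0, (e + 1) * a + 1))) (a * k)
          (dagVal M D k a T c (j + 1, e + 1))) (g % (a * k + 1))) _
          (fun g jj => by simp [dagChk, dagP, dagS]), Nat.mod_eq_of_lt hi]
        congr 1
        have e2 : ∀ e', dagVal M D k a T c (j + 1, e' + 1)
            = blkc D (a * k + 1) j ((mac M (a * k + 1) T)^[e' * (a * k)] c) := by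
          intro e'
          simp [dagVal]
        rw [e2, e2, replay_eq hM hc hD (by omega) hMx1, add_one_mul]
        intro s hs
        rw [hR _ e1 s hs.le, ev]
        congr 2
        have : (e + 1) * a * k = e * (a * k) + a * k := by ring
        omega

end

end Vale.Agent.P312
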