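import Vale.Agent.Lib.Space.SPNat
import Vale.Agent.P312.TapeDag

/-! The numerical functions of the simulation are computable in linear space. -/

namespace Vale.Agent.P312

open Finset Vale.Agent.Lib.Space

variable {A : Type} {B : Bud A} {α : Type} [Enc A α]

@[fun_prop] theorem sp_dig {b X i : α → ℕ} (hb : SP B b) (hX : SP B X) (hi : SP B i) :
    SP B fun v => dig (b v) (X v) (i v) :=
  (SP.div_pow hX hb hi).mod hb

@[fun_prop] theorem sp_cpow {M b i : α → ℕ} (hM : SP B M) (hb : SP B b) (hi : SP B i) :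
    SP B fun v => cpow (M v) (b v) (i v) :=
  SP.min_pow hM hb hi

@[fun_prop] theorem sp_setd {M b X i w : α → ℕ} (hM : SP B M) (hb : SP B b) (hX : SP B X)
    (hi : SP B i) (hw : SP B w) : SP B fun v => setd (M v) (b v) (X v) (i v) (w v) := by
  unfold setd
  fun_prop

theorem sp_pmod {q n : α → ℕ} {f : α → ℕ → ℕ} (hq : SP B q) (hn : SP B n)
    (hf : SP B fun p : α × ℕ => f p.1 p.2) : SP B fun v => pmod (q v) (n v) (f v) :=
  SP.prod_mod hq hn hf

@[fun_prop] theorem sp_inv {q x : α → ℕ} (hq : SP B q) (hx : SP B x) :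
    SP B fun v => inv (q v) (x v) :=
  sp_pmod hq (by fun_prop) (by fun_prop)

@[fun_prop] theorem sp_lag {q D c x : α → ℕ} (hq : SP B q) (hD : SP B D) (hc : SP B c)
    (hx : SP B x) : SP B fun v => lag (q v) (D v) (c v) (x v) :=
  sp_pmod hq hD (SP.ite (by fun_prop) (by fun_prop) (by fun_prop))

@[fun_prop] theorem sp_wt {q D N b l X : α → ℕ} (hq : SP B q) (hD : SP B D) (hN : SP B N)
    (hb : SP B b) (hl : SP B l) (hX : SP B X) :
    SP B fun v => wt (q v) (D v) (N v) (b v) (l v) (X v) :=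
  sp_pmod hq hN (by fun_prop)

theorem sp_ext {q D N DN l X m Y : α → ℕ} {f : α → ℕ → ℕ → ℕ} (hq : SP B q) (hD : SP B D)
    (hN : SP B N) (hDN : SP B DN) (hf : SP B fun p : α × ℕ × ℕ => f p.1 p.2.1 p.2.2)
    (hl : SP B l) (hX : SP B X) (hm : SP B m) (hY : SP B Y) :
    SP B fun v => ext (q v) (D v) (N v) (DN v) (f v) (l v) (X v) (m v) (Y v) := by
  refine SP.sum_range hDN (SP.sum_range (by fun_prop) (SP.mul ?_ (by fun_prop)))
  exact hf.comp (g := fun p : (α × ℕ) × ℕ => (p.1.1, p.1.2, p.2)) (by fun_prop)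

@[fun_prop] theorem sp_gr {G t : α → ℕ} (hG : SP B G) (ht : SP B t) :
    SP B fun v => gr (G v) (t v) :=
  SP.ite (by fun_prop) (by fun_prop) (by fun_prop)

@[fun_prop] theorem sp_fr {q G tag l g jj m acc s st : α → ℕ} {u : α → ℕ × ℕ} (hq : SP B q)
    (hG : SP B G) (ht : SP B tag) (hu : SP B u) (hl : SP B l) (hg : SP B g) (hj : SP B jj)
    (hm : SP B m) (ha : SP B acc) (hs : SP B s) (hst : SP B st) :
    SP B fun v => fr (q v) (G v) (tag v) (u v) (l v) (g v) (jj v) (m v) (acc v) (s v) (st v) := by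
  unfold fr
  fun_prop

@[fun_prop] theorem sp_enter {q G st : α → ℕ} {u : α → ℕ × ℕ} (hq : SP B q) (hG : SP B G)
    (hu : SP B u) (hst : SP B st) : SP B fun v => enter (q v) (G v) (u v) (st v) :=
  SP.ite (by fun_prop) hst (by fun_prop)

@[fun_prop] theorem sp_subm {q s e : α → ℕ} (hq : SP B q) (hs : SP B s) (he : SP B e) :
    SP B fun v => subm (q v) (s v) (e v) := by
  unfold subm
  fun_prop

/-- All the data of the graph are computable from the context. -/
structure SPDag (B : Bud A) (d : α → Dag) : Prop where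
  q : SP B fun v => (d v).q
  N : SP B fun v => (d v).N
  D : SP B fun v => (d v).D
  DN : SP B fun v => (d v).DN
  G : SP B fun v => (d v).G
  J : SP B fun v => (d v).J
  M : SP B fun v => (d v).M
  P : SP B fun p : α × ℕ × ℕ => (d p.1).P p.2
  S : SP B fun p : α × (ℕ × ℕ) × ℕ × ℕ => (d p.1).S p.2.1 p.2.2.1 p.2.2.2
  chk : SP B fun p : α × (ℕ × ℕ) × ℕ × ℕ × ℕ × ℕ =>
    (d p.1).chk p.2.1 p.2.2.1 p.2.2.2.1 p.2.2.2.2.1 p.2.2.2.2.2

theorem SPDag.comp {β : Type} [Enc A β] {d : α → Dag} (hd : SPDag B d) {c : β → α}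
    (hc : SP B c) : SPDag B fun v => d (c v) where
  q := hd.q.comp hc
  N := hd.N.comp hc
  D := hd.D.comp hc
  DN := hd.DN.comp hc
  G := hd.G.comp hc
  J := hd.J.comp hc
  M := hd.M.comp hc
  P := hd.P.comp (g := fun p : β × ℕ × ℕ => (c p.1, p.2)) (by fun_prop)
  S := hd.S.comp (g := fun p : β × (ℕ × ℕ) × ℕ × ℕ => (c p.1, p.2)) (by fun_prop)
  chk := hd.chk.comp (g := fun p : β × (ℕ × ℕ) × ℕ × ℕ × ℕ × ℕ => (c p.1, p.2)) (by fun_prop)

theorem sp_stepF {d : α → Dag} (hd : SPDag B d) {tag l g jj m acc s st : α → ℕ} {u : α → ℕ × ℕ}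
    {σ : α → ℕ × ℕ × ℕ × ℕ} (ht : SP B tag) (hu : SP B u) (hl : SP B l) (hg : SP B g)
    (hj : SP B jj) (hm : SP B m) (ha : SP B acc) (hs : SP B s) (hst : SP B st) (hσ : SP B σ) :
    SP B fun v => stepF (d v) (tag v) (u v) (l v) (g v) (jj v) (m v) (acc v) (s v) (st v)
      (σ v) := by
  have hq := hd.q
  have hN := hd.N
  have hD := hd.D
  have hG := hd.G
  have hJ := hd.J
  have hM := hd.M
  have hP : SP B fun v => (d v).P (u v) := hd.P.comp (g := fun v => (v, u v)) (by fun_prop)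
  have hS : SP B fun v => (d v).S (u v) (g v) (jj v) :=
    hd.S.comp (g := fun v => (v, u v, g v, jj v)) (by fun_prop)
  have hE : SP B fun v => ext (d v).q (d v).D (d v).N (d v).DN ((d v).chk (u v) (g v) (jj v))
      (l v) (σ v).2.2.2 (m v) (σ v).2.1 :=
    sp_ext hq hD hN hd.DN (hd.chk.comp
      (g := fun p : α × ℕ × ℕ => (p.1, u p.1, g p.1, jj p.1, p.2)) (by fun_prop))
      hl (by fun_prop) hm (by fun_prop)
  unfold stepF
  refine SP.ite (by fun_prop) (SP.ite (by fun_prop) (by fun_prop) ?_) ?_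
  · exact SP.pair (sp_enter hq hG hP (by fun_prop)) (by fun_prop)
  refine SP.ite (by fun_prop)
    (SP.pair (SP.ite (by fun_prop) (by fun_prop) (by fun_prop)) (by fun_prop)) ?_
  refine SP.ite (by fun_prop)
    (SP.pair (SP.ite (by fun_prop) (by fun_prop) (by fun_prop)) (by fun_prop)) ?_
  refine SP.ite (by fun_prop) (SP.ite (by fun_prop) (by fun_prop) (by fun_prop)) ?_
  refine SP.ite (by fun_prop) (SP.ite (by fun_prop) (by fun_prop) ?_) ?_
  · exact SP.pair (sp_enter hq hG hS (by fun_prop)) (by fun_prop)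
  refine SP.ite (by fun_prop) (SP.pair ?_ (by fun_prop)) hσ
  exact sp_fr hq hG (by fun_prop) hu hl hg hj hm ha
    (SP.ite (by fun_prop) hs (sp_subm hq hs hE)) hst

theorem sp_step {d : α → Dag} (hd : SPDag B d) {σ : α → ℕ × ℕ × ℕ × ℕ} (hσ : SP B σ) :
    SP B fun v => step (d v) (σ v) := by
  have hq := hd.q
  have hG := hd.G
  unfold step
  refine sp_stepF hd ?_ ?_ ?_ ?_ ?_ ?_ ?_ ?_ ?_ hσ <;> fun_prop

end Vale.Agent.P312
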