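import Vale.Agent.P312.SPNum
import Vale.Agent.P312.Link

/-!
The local computations on the one-tape side need only linear space.
-/

namespace Vale.Agent.P312

open Vale.Agent.Lib.Space

variable {A α : Type} {B : Bud A} [Enc A α]

/-- The transition tables are computable. -/
structure NM.Comp (B : Bud A) (M : NM) : Prop where
  wf : M.WF
  nq : SP B fun p : ℕ × ℕ => M.nq p.1 p.2
  wr : SP B fun p : ℕ × ℕ => M.wr p.1 p.2
  mv : SP B fun p : ℕ × ℕ => M.mv p.1 p.2

variable {M : NM}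

theorem sp_lstep (hM : M.Comp B) {Mx D w j : α → ℕ} {p : α → ℕ × ℕ} (hMx : SP B Mx) (hD : SP B D)
    (hw : SP B w) (hj : SP B j) (hp : SP B p) :
    SP B fun v => lstep M (Mx v) (D v) (w v) (j v) (p v) := by
  have hq : SP B fun v => ((p v).1 % M.nQ, dig (D v) (p v).2 ((p v).1 / M.nQ % w v)) := by
    fun_prop
  have h1 := hM.nq.comp hq
  have h2 := hM.wr.comp hq
  have h3 := hM.mv.comp hq
  simp only at h1 h2 h3
  unfold lstep
  refine SP.ite (SP.decide_eq (by fun_prop) hj) (SP.pair (h1.add ?_) (sp_setd hMx hD ?_ ?_ h2)) hp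
  · exact (SP.const _).mul ((SP.add (by fun_prop) h3).sub (SP.const _))
  · fun_prop
  · fun_prop

theorem lstep_le (hM : M.WF) (Mx D w j : ℕ) (p : ℕ × ℕ) :
    (lstep M Mx D w j p).1 ≤ p.1 + 3 * M.nQ ∧ (lstep M Mx D w j p).2 ≤ p.2 + M.nG * Mx := by
  unfold lstep
  split_ifs
  · constructor
    · have h1 := hM.nq_lt (p.1 % M.nQ) (dig D p.2 (p.1 / M.nQ % w))
      have h2 := hM.mv_le (p.1 % M.nQ) (dig D p.2 (p.1 / M.nQ % w))
      have h3 : M.nQ * (p.1 / M.nQ + M.mv (p.1 % M.nQ) (dig D p.2 (p.1 / M.nQ % w)) - 1) ≤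
          M.nQ * (p.1 / M.nQ + 2) :=
        Nat.mul_le_mul_left _ ((Nat.sub_le _ _).trans (Nat.add_le_add_left h2 _))
      have h4 := Nat.mul_div_le p.1 M.nQ
      rw [mul_add] at h3
      simp only
      omega
    · exact (setd_le _ _ _ _ _).trans
        (Nat.add_le_add_left (Nat.mul_le_mul_right _ (hM.wr_lt _ _).le) _)
  · exact ⟨Nat.le_add_right _ _, Nat.le_add_right _ _⟩

theorem lstep_iter_le (hM : M.WF) (Mx D w j k : ℕ) (p : ℕ × ℕ) :
    ((lstep M Mx D w j)^[k] p).1 ≤ p.1 + k * (3 * M.nQ) ∧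
      ((lstep M Mx D w j)^[k] p).2 ≤ p.2 + k * (M.nG * Mx) := by
  induction k with
  | zero => simp
  | succ k ih =>
    rw [Function.iterate_succ_apply', add_mul, add_mul]
    have := lstep_le hM Mx D w j ((lstep M Mx D w j)^[k] p)
    omega

theorem sp_visit (hM : M.Comp B) {Mx D w T j e Y : α → ℕ} (hMx : SP B Mx) (hD : SP B D)
    (hw : SP B w) (hT : SP B T) (hj : SP B j) (he : SP B e) (hY : SP B Y) :
    SP B fun v => visit M (Mx v) (D v) (w v) (T v) (j v) (e v) (Y v) := by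
  unfold visit
  refine SP.iterate (step := fun v => lstep M (Mx v) (D v) (w v) (j v))
    (bd := fun v => (e v + T v * (3 * M.nQ) + (Y v + T v * (M.nG * Mx v)) + 1) *
      (e v + T v * (3 * M.nQ) + (Y v + T v * (M.nG * Mx v)) + 1)) hT (he.pair hY)
    (sp_lstep hM (by fun_prop) (by fun_prop) (by fun_prop) (by fun_prop) (by fun_prop))
    (PBd.of_SP (by fun_prop)) fun x v _ k hk => ?_
  obtain ⟨h1, h2⟩ := lstep_iter_le hM.wf (Mx v) (D v) (w v) (j v) k (e v, Y v)
  have h3 := Nat.mul_le_mul_right (3 * M.nQ) hk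
  have h4 := Nat.mul_le_mul_right (M.nG * Mx v) hk
  refine (enc_pair_le (A := A) _ _).trans ?_
  rw [← sq]
  refine Nat.pow_le_pow_left ?_ 2
  change ((lstep M (Mx v) (D v) (w v) (j v))^[k] (e v, Y v)).1 +
    ((lstep M (Mx v) (D v) (w v) (j v))^[k] (e v, Y v)).2 + 1 ≤ _
  simp only at h1 h2
  omega

theorem replay_le (hM : M.WF) (Mx D w T j : ℕ) (E : ℕ → ℕ) (n Y : ℕ) :
    replay M Mx D w T j E n Y ≤ Y + n * (T * (M.nG * Mx)) := by
  induction n with
  | zero => simp [replay]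
  | succ n ih =>
    have := (lstep_iter_le hM Mx D w j T (E n, replay M Mx D w T j E n Y)).2
    have e : replay M Mx D w T j E (n + 1) Y =
      ((lstep M Mx D w j)^[T] (E n, replay M Mx D w T j E n Y)).2 := rfl
    rw [e, add_mul]
    simp only at this
    omega

theorem sp_replay (hM : M.Comp B) {Mx D w T j n Y : α → ℕ} {E : α → ℕ → ℕ} (hMx : SP B Mx)
    (hD : SP B D) (hw : SP B w) (hT : SP B T) (hj : SP B j)
    (hE : SP B fun p : α × ℕ => E p.1 p.2) (hn : SP B n) (hY : SP B Y) :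
    SP B fun v => replay M (Mx v) (D v) (w v) (T v) (j v) (E v) (n v) (Y v) := by
  unfold replay loop
  have hE' : SP B fun p : α × ℕ × ℕ => E p.1 p.2.1 :=
    hE.comp (g := fun p : α × ℕ × ℕ => (p.1, p.2.1)) (by fun_prop)
  refine SP.natRec
    (step := fun v s Y => (visit M (Mx v) (D v) (w v) (T v) (j v) (E v s) Y).2)
    (bd := fun v => Y v + n v * (T v * (M.nG * Mx v))) hn hY
    (sp_visit hM (by fun_prop) (by fun_prop) (by fun_prop) (by fun_prop) (by fun_prop) hE'
      (by fun_prop)).snd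
    (PBd.of_SP (by fun_prop)) fun x v _ k hk => ?_
  exact (replay_le hM.wf (Mx v) (D v) (w v) (T v) (j v) (E v) k (Y v)).trans
    (Nat.add_le_add_left (Nat.mul_le_mul_right _ hk) _)

theorem sp_triv {N g jj w : α → ℕ} (hN : SP B N) (hg : SP B g) (hj : SP B jj) (hw : SP B w) :
    SP B fun v => triv (N v) (g v) (jj v) (w v) := by
  unfold triv
  exact SP.ite (SP.decide_eq (by fun_prop) (by fun_prop))
    (SP.ite (SP.decide_eq (by fun_prop) (by fun_prop)) hw (by fun_prop)) (by fun_prop)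

theorem sp_evs {D L n X gg s : α → ℕ} (hD : SP B D) (hL : SP B L) (hn : SP B n) (hX : SP B X)
    (hg : SP B gg) (hs : SP B s) : SP B fun v => evs (D v) (L v) (n v) (X v) (gg v) (s v) := by
  unfold evs
  exact SP.ite (SP.decide_lt hs hn) (by fun_prop) (by fun_prop)

theorem sp_chkR (hM : M.Comp B) {Mx D k L T n i gg jj X Y : α → ℕ} (hMx : SP B Mx) (hD : SP B D)
    (hk : SP B k) (hL : SP B L) (hT : SP B T) (hn : SP B n) (hi : SP B i) (hg : SP B gg)
    (hj : SP B jj) (hX : SP B X) (hY : SP B Y) :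
    SP B fun v => chkR M (Mx v) (D v) (k v) (L v) (T v) (n v) (i v) (gg v) (jj v) (X v) (Y v) := by
  unfold chkR
  refine SP.ite (SP.decide_eq (SP.fst (sp_visit hM hMx hD (by fun_prop) hT (by fun_prop) (by fun_prop)
    (sp_replay hM hMx hD (by fun_prop) hT (by fun_prop) ?_ (by fun_prop) hY))) (by fun_prop)) ?_
    (by fun_prop)
  · exact sp_evs (by fun_prop) (by fun_prop) (by fun_prop) (by fun_prop) (by fun_prop)
      (by fun_prop)
  · exact SP.ite (SP.decide_eq hj (by fun_prop))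
      (SP.ite (SP.decide_eq (by fun_prop) (by fun_prop))
        (SP.ite (SP.decide_le (by fun_prop) hL) (by fun_prop) (by fun_prop)) (by fun_prop)) (by fun_prop)

theorem sp_dagP {a : α → ℕ} {u : α → ℕ × ℕ} (ha : SP B a) (hu : SP B u) :
    SP B fun v => dagP (a v) (u v) := by
  unfold dagP
  exact SP.ite (SP.decide_eq (by fun_prop) (by fun_prop)) (by fun_prop)
    (SP.ite (SP.decide_eq (by fun_prop) (by fun_prop)) (by fun_prop) (by fun_prop))

theorem sp_dagS {nQ D a N g jj : α → ℕ} {u : α → ℕ × ℕ} (hQ : SP B nQ) (hD : SP B D)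
    (ha : SP B a) (hN : SP B N) (hu : SP B u) (hg : SP B g) (hj : SP B jj) :
    SP B fun v => dagS (nQ v) (D v) (a v) (N v) (u v) (g v) (jj v) := by
  unfold dagS
  exact SP.ite (SP.decide_eq (by fun_prop) (by fun_prop))
    (SP.ite (SP.decide_eq (by fun_prop) (by fun_prop)) (by fun_prop) (by fun_prop)) (by fun_prop)

theorem sp_dagChk (hM : M.Comp B) {Mx D k a T e0 g jj X Y : α → ℕ} {tp0 : α → ℕ → ℕ}
    {u : α → ℕ × ℕ} (hMx : SP B Mx) (hD : SP B D) (hk : SP B k) (ha : SP B a) (hT : SP B T)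
    (he : SP B e0) (ht : SP B fun p : α × ℕ => tp0 p.1 p.2) (hu : SP B u) (hg : SP B g)
    (hj : SP B jj) (hX : SP B X) (hY : SP B Y) :
    SP B fun v =>
      dagChk M (Mx v) (D v) (k v) (a v) (T v) (e0 v) (tp0 v) (u v) (g v) (jj v) (X v) (Y v) := by
  unfold dagChk
  refine SP.ite (SP.decide_eq (by fun_prop) (by fun_prop))
    (SP.ite (SP.decide_eq (by fun_prop) (by fun_prop)) (sp_triv (by fun_prop) hg hj he)
      (sp_chkR hM hMx hD hk (by fun_prop) hT (by fun_prop) (by fun_prop) (by fun_prop) hj hX hY))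
    (SP.ite (SP.decide_eq (by fun_prop) (by fun_prop)) (sp_triv (by fun_prop) hg hj ?_)
      (sp_triv (by fun_prop) hg hj (sp_dig hD
        (sp_replay hM hMx hD (by fun_prop) hT (by fun_prop) ?_ (by fun_prop) hY) (by fun_prop))))
  · exact ht.comp (g := fun v => (v, ((u v).1 - 1) * (a v * k v + 1) + g v % (a v * k v + 1)))
      (by fun_prop)
  · fun_prop

theorem sp_mkDag (hM : M.Comp B) {Mx D q k a T e0 : α → ℕ} {tp0 : α → ℕ → ℕ} (hMx : SP B Mx)
    (hD : SP B D) (hq : SP B q) (hk : SP B k) (ha : SP B a) (hT : SP B T) (he : SP B e0)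
    (ht : SP B fun p : α × ℕ => tp0 p.1 p.2) :
    SPDag B fun v => mkDag M (Mx v) (D v) (q v) (k v) (a v) (T v) (e0 v) (tp0 v) where
  q := hq
  N := by
    change SP B fun v => a v * k v + 1
    fun_prop
  D := hD
  DN := by
    change SP B fun v => cpow (Mx v) (D v) (a v * k v + 1)
    fun_prop
  G := by
    change SP B fun v => (a v * k v + 1) * cpow (Mx v) (D v) (k v + 1)
    fun_prop
  J := hk
  M := hMx
  P := sp_dagP (by fun_prop) (by fun_prop)
  S := sp_dagS (by fun_prop) (by fun_prop) (by fun_prop) (by fun_prop) (by fun_prop) (by fun_prop)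
    (by fun_prop)
  chk := sp_dagChk hM (by fun_prop) (by fun_prop) (by fun_prop) (by fun_prop) (by fun_prop)
    (by fun_prop)
    (ht.comp (g := fun p : (α × (ℕ × ℕ) × ℕ × ℕ × ℕ × ℕ) × ℕ => (p.1.1, p.2)) (by fun_prop))
    (by fun_prop) (by fun_prop) (by fun_prop) (by fun_prop) (by fun_prop)

/-- A function of two numbers which vanishes outside a rectangle is computable. -/
theorem sp_table2 (K L : ℕ) (f : ℕ → ℕ → ℕ) (hf : ∀ a b, K ≤ a ∨ L ≤ b → f a b = 0) :
    SP B fun p : ℕ × ℕ => f p.1 p.2 := by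
  have e : (fun p : ℕ × ℕ => f p.1 p.2) = fun p : ℕ × ℕ => if p.2 < L then
      (if p.1 * L + p.2 < K * L then f ((p.1 * L + p.2) / L) ((p.1 * L + p.2) % L) else 0)
      else 0 := by
    funext p
    split_ifs with h1 h2
    · rw [psh_div h1, psh_mod h1]
    · refine hf _ _ (.inl ?_)
      by_contra h3
      have : (p.1 + 1) * L ≤ K * L := Nat.mul_le_mul_right _ (by omega)
      rw [add_mul] at this
      omega
    · exact hf _ _ (.inr (by omega))
  rw [e]
  exact SP.ite (by fun_prop) (SP.table (K * L) (fun n => f (n / L) (n % L)) (by fun_prop))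
    (by fun_prop)

/-- The numerical machine of a one-tape machine has computable tables. -/
theorem nm_comp (B : Bud A) (M : OneTape A) : (nm M).Comp B where
  wf := nm_wf M
  nq := sp_table2 (nm M).nQ (nm M).nG (nm M).nq fun a b h => by
    change (tr M a b).1 = 0
    rw [tr_eq_zero M h]
  wr := sp_table2 (nm M).nQ (nm M).nG (nm M).wr fun a b h => by
    change (tr M a b).2.1 = 0
    rw [tr_eq_zero M h]
  mv := sp_table2 (nm M).nQ (nm M).nG (nm M).mv fun a b h => by
    change (tr M a b).2.2 = 0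
    rw [tr_eq_zero M h]

end Vale.Agent.P312
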