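import Vale.Agent.P312.Num

/-!
Numerical one-tape machines, macro steps (one visit of a block), and the local replay of the visits
of one block.
-/

namespace Vale.Agent.P312

open Finset

/-- `loop n f b = f (n - 1) (… (f 0 b))`. -/
def loop {β : Type} (n : ℕ) (f : ℕ → β → β) (b : β) : β := Nat.rec b f n

@[simp] theorem loop_zero {β : Type} (f : ℕ → β → β) (b : β) : loop 0 f b = b := rfl

theorem loop_succ {β : Type} (n : ℕ) (f : ℕ → β → β) (b : β) :
    loop (n + 1) f b = f n (loop n f b) := rfl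

/-- A one-tape machine whose states and symbols are numbers. -/
structure NM where
  /-- number of states -/
  nQ : ℕ
  /-- number of symbols -/
  nG : ℕ
  /-- next state -/
  nq : ℕ → ℕ → ℕ
  /-- written symbol -/
  wr : ℕ → ℕ → ℕ
  /-- move plus one -/
  mv : ℕ → ℕ → ℕ

/-- The transition functions have the right ranges. -/
structure NM.WF (M : NM) : Prop where
  nq_lt : ∀ q s, M.nq q s < M.nQ
  wr_lt : ∀ q s, M.wr q s < M.nG
  mv_le : ∀ q s, M.mv q s ≤ 2

/-- Configurations: state, position of the head, tape. -/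
abbrev Cfg := ℕ × ℕ × (ℕ → ℕ)

/-- One step. -/
def gstep (M : NM) (c : Cfg) : Cfg :=
  (M.nq c.1 (c.2.2 c.2.1), c.2.1 + M.mv c.1 (c.2.2 c.2.1) - 1,
    Function.update c.2.2 c.2.1 (M.wr c.1 (c.2.2 c.2.1)))

/-- One step if the head is in block `j`. -/
def gfs (M : NM) (w j : ℕ) (c : Cfg) : Cfg := if c.2.1 / w = j then gstep M c else c

/-- A macro step: run until the head leaves its block, at most `T` steps. -/
def mac (M : NM) (w T : ℕ) (c : Cfg) : Cfg := (gfs M w (c.2.1 / w))^[T] c

/-- The event of a configuration: state and position. -/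
def evc (M : NM) (c : Cfg) : ℕ := c.1 + M.nQ * c.2.1

/-- The content of block `j`. -/
def blkc (D w j : ℕ) (c : Cfg) : ℕ := ofd D w fun u => c.2.2 (j * w + u)

/-- One step on the pair (event, content of block `j`). -/
def lstep (M : NM) (Mx D w j : ℕ) (p : ℕ × ℕ) : ℕ × ℕ :=
  if p.1 / M.nQ / w = j then
    (M.nq (p.1 % M.nQ) (dig D p.2 (p.1 / M.nQ % w)) +
      M.nQ * (p.1 / M.nQ + M.mv (p.1 % M.nQ) (dig D p.2 (p.1 / M.nQ % w)) - 1),
      setd Mx D p.2 (p.1 / M.nQ % w) (M.wr (p.1 % M.nQ) (dig D p.2 (p.1 / M.nQ % w))))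
  else p

/-- One visit of block `j`. -/
def visit (M : NM) (Mx D w T j e Y : ℕ) : ℕ × ℕ := (lstep M Mx D w j)^[T] (e, Y)

/-- The content of block `j` after the macro steps starting with the events `E 0, …, E (n-1)`. -/
def replay (M : NM) (Mx D w T j : ℕ) (E : ℕ → ℕ) (n Y : ℕ) : ℕ :=
  loop n (fun s Y => (visit M Mx D w T j (E s) Y).2) Y

/-- Valid configurations. -/
def Cfg.Ok (M : NM) (c : Cfg) : Prop := c.1 < M.nQ ∧ ∀ p, c.2.2 p < M.nG

variable {M : NM} {Mx D w T : ℕ}

theorem Cfg.Ok.gstep (hM : M.WF) {c : Cfg} (h : c.Ok M) : (gstep M c).Ok M := by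
  refine ⟨hM.nq_lt _ _, fun p => ?_⟩
  simp only [P312.gstep, Function.update_apply]
  split_ifs
  · exact hM.wr_lt _ _
  · exact h.2 p

theorem Cfg.Ok.gfs (hM : M.WF) {c : Cfg} (h : c.Ok M) (w j : ℕ) : (gfs M w j c).Ok M := by
  unfold P312.gfs
  split_ifs
  · exact h.gstep hM
  · exact h

theorem Cfg.Ok.gfs_iter (hM : M.WF) {c : Cfg} (h : c.Ok M) (w j n : ℕ) :
    ((P312.gfs M w j)^[n] c).Ok M := by
  induction n with
  | zero => exact h
  | succ n ih => rw [Function.iterate_succ_apply']; exact ih.gfs hM w j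

theorem Cfg.Ok.mac_iter (hM : M.WF) {c : Cfg} (h : c.Ok M) (w T n : ℕ) :
    ((mac M w T)^[n] c).Ok M := by
  induction n with
  | zero => exact h
  | succ n ih => rw [Function.iterate_succ_apply']; exact ih.gfs_iter hM _ _ _

theorem evc_mod {c : Cfg} (h : c.Ok M) : evc M c % M.nQ = c.1 := by
  rw [evc, Nat.add_mul_mod_self_left, Nat.mod_eq_of_lt h.1]

theorem evc_div {c : Cfg} (h : c.Ok M) : evc M c / M.nQ = c.2.1 := by
  have := h.1
  rw [evc, Nat.add_mul_div_left _ _ (by omega), Nat.div_eq_of_lt h.1, zero_add]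

theorem blkc_lt {c : Cfg} (h : c.Ok M) (hD : M.nG ≤ D) (j : ℕ) : blkc D w j c < D ^ w :=
  ofd_lt _ _ fun _ _ => (h.2 _).trans_le hD

theorem dig_blkc {c : Cfg} (h : c.Ok M) (hD : M.nG ≤ D) (j : ℕ) {u : ℕ} (hu : u < w) :
    dig D (blkc D w j c) u = c.2.2 (j * w + u) :=
  dig_ofd _ _ (fun _ _ => (h.2 _).trans_le hD) u hu

theorem lstep_comm {c : Cfg} (h : c.Ok M) (hD : M.nG ≤ D) (hw : 0 < w) (hMx : D ^ w ≤ Mx) (j : ℕ) :
    lstep M Mx D w j (evc M c, blkc D w j c) = (evc M (gfs M w j c), blkc D w j (gfs M w j c)) := by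
  simp only [lstep, gfs, evc_mod h, evc_div h]
  split_ifs with hj
  · have hu : c.2.1 % w < w := Nat.mod_lt _ hw
    have hp : j * w + c.2.1 % w = c.2.1 := by rw [← hj, mul_comm]; exact Nat.div_add_mod _ _
    rw [dig_blkc h hD j hu, hp]
    refine Prod.ext rfl ?_
    simp only [blkc]
    rw [setd_ofd _ (fun _ _ => (h.2 _).trans_le hD) hu hMx]
    refine ofd_congr _ _ _ fun u _ => ?_
    simp only [gstep, Function.update_apply]
    by_cases e : u = c.2.1 % w
    · rw [if_pos e, if_pos (by rw [e, hp])]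
    · rw [if_neg e, if_neg (by omega)]
  · rfl

theorem visit_comm (hM : M.WF) {c : Cfg} (h : c.Ok M) (hD : M.nG ≤ D) (hw : 0 < w)
    (hMx : D ^ w ≤ Mx) (j : ℕ) :
    visit M Mx D w T j (evc M c) (blkc D w j c) =
      (evc M ((gfs M w j)^[T] c), blkc D w j ((gfs M w j)^[T] c)) := by
  rw [visit]
  induction T with
  | zero => rfl
  | succ n ih =>
    rw [Function.iterate_succ_apply', Function.iterate_succ_apply', ih,
      lstep_comm (h.gfs_iter hM w j n) hD hw hMx]

theorem blkc_gfs {j j' : ℕ} (hj : j' ≠ j) (c : Cfg) :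
    blkc D w j' (gfs M w j c) = blkc D w j' c := by
  unfold gfs
  split_ifs with h
  · refine ofd_congr _ _ _ fun u hu => ?_
    simp only [gstep]
    rw [Function.update_of_ne]
    intro e
    apply hj
    rw [← h, ← e, mul_comm, Nat.mul_add_div (by omega), Nat.div_eq_of_lt hu, add_zero]
  · rfl

theorem blkc_mac (j : ℕ) (c : Cfg) :
    blkc D w j ((gfs M w j)^[T] c) = blkc D w j (mac M w T c) := by
  by_cases hj : c.2.1 / w = j
  · rw [mac, hj]
  · have h1 : (gfs M w j)^[T] c = c := Function.iterate_fixed (by rw [gfs, if_neg hj]) T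
    rw [h1, mac]
    induction T with
    | zero => rfl
    | succ n ih =>
      rw [Function.iterate_succ_apply', blkc_gfs (Ne.symm hj)]
      exact ih (Function.iterate_fixed (by rw [gfs, if_neg hj]) n)

theorem replay_eq (hM : M.WF) {c : Cfg} (h : c.Ok M) (hD : M.nG ≤ D) (hw : 0 < w)
    (hMx : D ^ w ≤ Mx) (j s₀ : ℕ) (E : ℕ → ℕ) (n : ℕ)
    (hE : ∀ s < n, E s = evc M ((mac M w T)^[s₀ + s] c)) :
    replay M Mx D w T j E n (blkc D w j ((mac M w T)^[s₀] c)) =
      blkc D w j ((mac M w T)^[s₀ + n] c) := by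
  induction n with
  | zero => rfl
  | succ n ih =>
    rw [replay, loop_succ, ← replay, ih fun s hs => hE s (by omega), hE n (by omega),
      visit_comm hM (h.mac_iter hM _ _ _) hD hw hMx, blkc_mac, ← add_assoc,
      Function.iterate_succ_apply']

theorem visit_fst (hM : M.WF) {c : Cfg} (h : c.Ok M) (hD : M.nG ≤ D) (hw : 0 < w)
    (hMx : D ^ w ≤ Mx) :
    (visit M Mx D w T (evc M c / M.nQ / w) (evc M c) (blkc D w (evc M c / M.nQ / w) c)).1 =
      evc M (mac M w T c) := by
  rw [visit_comm hM h hD hw hMx, evc_div h, mac]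

/-! ### Macro steps and the genuine computation -/

theorem gfs_iter_eq (j : ℕ) (c : Cfg) (n : ℕ) : ∃ τ ≤ n, (gfs M w j)^[n] c = (gstep M)^[τ] c ∧
    (τ = n ∨ ((gstep M)^[τ] c).2.1 / w ≠ j) := by
  induction n with
  | zero => exact ⟨0, le_rfl, rfl, Or.inl rfl⟩
  | succ n ih =>
    obtain ⟨τ, hτ, e, h⟩ := ih
    rw [Function.iterate_succ_apply', e, gfs]
    split_ifs with hj
    · refine ⟨τ + 1, by omega, (Function.iterate_succ_apply' _ _ _).symm, Or.inl ?_⟩
      rcases h with h | h
      · rw [h]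
      · exact absurd hj h
    · exact ⟨τ, by omega, rfl, Or.inr hj⟩

theorem mac_iter_eq (c : Cfg) (s : ℕ) : ∃ τ ≤ s * T, (mac M w T)^[s] c = (gstep M)^[τ] c := by
  induction s with
  | zero => exact ⟨0, by omega, rfl⟩
  | succ s ih =>
    obtain ⟨τ, hτ, e⟩ := ih
    obtain ⟨τ', hτ', e', -⟩ := gfs_iter_eq (M := M) (w := w) (((gstep M)^[τ] c).2.1 / w)
      ((gstep M)^[τ] c) T
    refine ⟨τ' + τ, by rw [add_mul]; omega, ?_⟩
    rw [Function.iterate_succ_apply', e, mac, e', Function.iterate_add_apply]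

theorem gstep_iter_pos (hM : M.WF) (c : Cfg) (τ : ℕ) : ((gstep M)^[τ] c).2.1 ≤ c.2.1 + τ := by
  induction τ with
  | zero => exact le_rfl
  | succ τ ih =>
    rw [Function.iterate_succ_apply']
    have := hM.mv_le ((gstep M)^[τ] c).1 (((gstep M)^[τ] c).2.2 ((gstep M)^[τ] c).2.1)
    simp only [gstep] at this ⊢
    omega

theorem evc_mac_lt (hM : M.WF) {c : Cfg} (h : c.Ok M) (s : ℕ) :
    evc M ((mac M w T)^[s] c) < M.nQ * (c.2.1 + s * T + 1) := by
  have h1 := (h.mac_iter hM w T s).1
  obtain ⟨τ, hτ, e⟩ := mac_iter_eq (M := M) (w := w) (T := T) c s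
  have h2 := gstep_iter_pos hM c τ
  rw [← e] at h2
  have h3 : M.nQ * ((mac M w T)^[s] c).2.1 ≤ M.nQ * (c.2.1 + s * T) :=
    Nat.mul_le_mul_left _ (by omega)
  rw [evc, mul_add, mul_one]
  omega

/-- The number of changes of the block index before time `τ`. -/
def cnt (w : ℕ) (z : ℕ → ℕ) (τ : ℕ) : ℕ :=
  ((range τ).filter fun t => z t / w ≠ z (t + 1) / w).card

theorem cnt_mono (z : ℕ → ℕ) {τ τ' : ℕ} (h : τ ≤ τ') : cnt w z τ ≤ cnt w z τ' :=
  card_le_card (filter_subset_filter _ (range_mono h))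

theorem cnt_lt (z : ℕ → ℕ) (τ n : ℕ) (h : z (τ + n) / w ≠ z τ / w) :
    cnt w z τ < cnt w z (τ + n) := by
  induction n with
  | zero => exact absurd rfl h
  | succ n ih =>
    by_cases h' : z (τ + n) / w = z τ / w
    · have : cnt w z (τ + (n + 1)) = cnt w z (τ + n) + 1 := by
        rw [cnt, ← add_assoc, range_add_one, filter_insert, if_pos, card_insert_of_notMem (by simp),
          cnt]
        rw [h', add_assoc]
        exact h.symm
      have := cnt_mono (w := w) z (Nat.le_add_right τ n)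
      omega
    · exact (ih h').trans_le (cnt_mono z (by omega))

theorem mac_iter_cnt (c : Cfg) (s : ℕ) : ∃ τ, (mac M w T)^[s] c = (gstep M)^[τ] c ∧
    (T ≤ τ ∨ s ≤ cnt w (fun t => ((gstep M)^[t] c).2.1) τ) := by
  induction s with
  | zero => exact ⟨0, rfl, Or.inr (Nat.zero_le _)⟩
  | succ s ih =>
    obtain ⟨τ, e, h⟩ := ih
    obtain ⟨τ', -, e', h'⟩ := gfs_iter_eq (M := M) (w := w) (((gstep M)^[τ] c).2.1 / w)
      ((gstep M)^[τ] c) T
    refine ⟨τ + τ', ?_, ?_⟩
    · rw [Function.iterate_succ_apply', e, mac, e', add_comm, Function.iterate_add_apply]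
    · rcases h with h | h
      · left; omega
      · rcases h' with h' | h'
        · left; omega
        · right
          have := cnt_lt (w := w) (fun t => ((gstep M)^[t] c).2.1) τ τ' (by
            rw [add_comm, Function.iterate_add_apply]; exact h')
          omega

/-- If the machine stops within `T` steps and the number of crossings is less than `m`, then
`m` macro steps reach the final configuration. -/
theorem mac_iter_halt (c : Cfg) {H m : ℕ} (hH : H ≤ T)
    (hfix : gstep M ((gstep M)^[H] c) = (gstep M)^[H] c)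
    (hm : cnt w (fun t => ((gstep M)^[t] c).2.1) H < m) :
    (mac M w T)^[m] c = (gstep M)^[H] c := by
  obtain ⟨τ, e, h⟩ := mac_iter_cnt (M := M) (w := w) (T := T) c m
  have hτ : H ≤ τ := by
    rcases h with h | h
    · omega
    · by_contra hc
      have := cnt_mono (w := w) (fun t => ((gstep M)^[t] c).2.1) (show τ ≤ H by omega)
      omega
  obtain ⟨n, rfl⟩ := Nat.exists_eq_add_of_le hτ
  rw [e, add_comm, Function.iterate_add_apply, Function.iterate_fixed hfix]

/-- Some offset has few crossings. -/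
theorem exists_offset (hw : 0 < w) (z : ℕ → ℕ) (H : ℕ)
    (hz : ∀ t < H, z (t + 1) ≤ z t + 1 ∧ z t ≤ z (t + 1) + 1) :
    ∃ o < w, cnt w (fun t => z t + o) H ≤ H / w := by
  have key : ∀ x : ℕ, ((range w).filter fun o => (x + o) / w ≠ (x + 1 + o) / w).card ≤ 1 := by
    intro x
    rw [card_le_one]
    intro a ha b hb
    simp only [mem_filter, mem_range] at ha hb
    have h1 : ∀ o, (x + o) / w ≠ (x + 1 + o) / w → w ∣ x + o + 1 := by
      intro o ho
      by_contra hc
      apply ho
      rw [show x + 1 + o = x + o + 1 by ring, Nat.succ_div, if_neg hc, add_zero]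
    have h2 := h1 a ha.2
    have h3 := h1 b hb.2
    rcases le_total a b with h | h
    · have h4 : w ∣ b - a := by
        have := Nat.dvd_sub h3 h2
        rwa [show x + b + 1 - (x + a + 1) = b - a by omega] at this
      have := Nat.eq_zero_of_dvd_of_lt h4 (by omega)
      omega
    · have h4 : w ∣ a - b := by
        have := Nat.dvd_sub h2 h3
        rwa [show x + a + 1 - (x + b + 1) = a - b by omega] at this
      have := Nat.eq_zero_of_dvd_of_lt h4 (by omega)
      omega
  have hsum : ∑ o ∈ range w, cnt w (fun t => z t + o) H ≤ H := by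
    simp only [cnt, card_filter]
    rw [sum_comm]
    calc _ ≤ ∑ t ∈ range H, 1 := by
          refine sum_le_sum fun t ht => ?_
          rw [← card_filter]
          obtain ⟨h1, h2⟩ := hz t (mem_range.1 ht)
          rcases lt_trichotomy (z t) (z (t + 1)) with h | h | h
          · rw [show z (t + 1) = z t + 1 by omega]
            exact key _
          · simp [h]
          · rw [show z t = z (t + 1) + 1 by omega]
            simpa only [ne_comm] using key (z (t + 1))
      _ = H := by simp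
  by_contra hc
  push Not at hc
  have h1 : ∑ o ∈ range w, (H / w + 1) ≤ ∑ o ∈ range w, cnt w (fun t => z t + o) H :=
    sum_le_sum fun o ho => hc o (mem_range.1 ho)
  rw [sum_const, card_range, smul_eq_mul] at h1
  have := Nat.lt_mul_div_succ H hw
  omega

end Vale.Agent.P312
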