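import Vale.Agent.P312.TapeDag
import Vale.Agent.P312.Link
import Mathlib.NumberTheory.Bertrand

/-!
One try of the simulation (parameters `r`, offset `o`, prime `q`, bound `P` for all numbers), the
search over all tries, soundness and completeness.
-/

namespace Vale.Agent.P312

open Finset Vale.Agent.Lib.Space

/-- Number of groups. -/
def pLf (r : ℕ) : ℕ := (r + 1) * r

/-- Bound for the total number of steps. -/
def pBase (r : ℕ) : ℕ := pLf r * r * r ^ 5

/-- Bound for events and symbols. -/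
def pD (nQ nG r : ℕ) : ℕ := nQ * (2 * pBase r + (r * r + 1) + 1) + nG

/-- Lower bound for the prime. -/
def pK (nQ nG r : ℕ) : ℕ := r * ((r * r + 1) * pD nQ nG r) + 7

/-- The exponent of the bound for all numbers. -/
def pE (r : ℕ) : ℕ := 18 * ((r + 1) * (r + 1))

/-- The number of proper divisors other than one. -/
def nDiv (q : ℕ) : ℕ := ∑ d ∈ range q, if 2 ≤ d ∧ q % d = 0 then 1 else 0

/-- The parameters are admissible. -/
def good (nQ nG r o q P : ℕ) : Prop :=
  1 ≤ r ∧ o < r * r + 1 ∧ nDiv q = 0 ∧ pK nQ nG r < q ∧ cpow (P + 1) (q + 1) (pE r) ≤ P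

instance (nQ nG r o q P : ℕ) : Decidable (good nQ nG r o q P) := by
  unfold good; infer_instance

/-- The graph of the try. -/
def tryDag (M : NM) (q0 : ℕ) (I : ℕ → ℕ) (r o q P : ℕ) : Dag :=
  mkDag M P (pD M.nQ M.nG r) q r r (r ^ 5) (q0 + M.nQ * (pBase r + o))
    fun p => I (p + 1 - (pBase r + o))

/-- The initial state of the stack machine. -/
def tryInit (M : NM) (r o q P : ℕ) : ℕ × ℕ × ℕ × ℕ :=
  (if good M.nQ M.nG r o q P then
    enter q ((r * r + 1) * cpow P (pD M.nQ M.nG r) (r + 1)) (0, pLf r + 1) 0 else 0, 0, 0, 0)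

/-- The final state of the stack machine. -/
def tryFin (M : NM) (q0 : ℕ) (I : ℕ → ℕ) (r o q P : ℕ) : ℕ × ℕ × ℕ × ℕ :=
  (0, if good M.nQ M.nG r o q P then ofd q (r * r + 1) (dig (pD M.nQ M.nG r)
    (dagVal M (pD M.nQ M.nG r) r r (r ^ 5) (initC q0 I (pBase r + o)) (0, pLf r + 1))) else 0,
    0, 0)

/-- The answer given by a state: `0` unknown, `1` reject, `2` accept. -/
def outc (s : ℕ) : ℕ := if s ≤ 1 then s + 1 else 0

/-- The result of the try. -/
def tryAns (M : NM) (q0 : ℕ) (I : ℕ → ℕ) (r o q P : ℕ) : ℕ :=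
  if good M.nQ M.nG r o q P then outc (dig q (tryFin M q0 I r o q P).2.1 (r * r) % M.nQ) else 0

/-- The weighted sum of the results of all tries with parameters below `P`. -/
def cntAns (M : NM) (q0 : ℕ) (I : ℕ → ℕ) (P : ℕ) : ℕ :=
  ∑ r ∈ range P, ∑ o ∈ range P, ∑ q ∈ range P,
    if tryAns M q0 I r o q P = 2 then P * P * P + 1 else tryAns M q0 I r o q P

/-- The answer found with parameters below `P`: `0` unknown, `1` reject, `2` accept. -/
def ansP (M : NM) (q0 : ℕ) (I : ℕ → ℕ) (P : ℕ) : ℕ :=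
  if cntAns M q0 I P = 0 then 0 else if cntAns M q0 I P ≤ P * P * P then 1 else 2

/-- A value of `P` which suffices for the parameter `r`. -/
def pBound (nQ nG r : ℕ) : ℕ := (2 * pK nQ nG r + 1) ^ pE r + 1

theorem prime_iff_nDiv {q : ℕ} (h2 : 2 ≤ q) : q.Prime ↔ nDiv q = 0 := by
  rw [Nat.prime_def_lt', nDiv, sum_eq_zero_iff]
  constructor
  · rintro ⟨-, h⟩ d hd
    rw [if_neg]
    rintro ⟨h1, h3⟩
    exact h d h1 (mem_range.1 hd) (Nat.dvd_of_mod_eq_zero h3)
  · refine fun h => ⟨h2, fun d h1 h3 h4 => ?_⟩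
    have := h d (mem_range.2 h3)
    rw [if_pos ⟨h1, Nat.mod_eq_zero_of_dvd h4⟩] at this
    exact one_ne_zero this

theorem cpow_le_iff (P b e : ℕ) : cpow (P + 1) b e ≤ P ↔ b ^ e ≤ P := by
  unfold cpow
  omega

section

variable {M : NM} {q0 : ℕ} {I : ℕ → ℕ} {r o q P : ℕ}

theorem pD_facts (hQ : 0 < M.nQ) (hr : 1 ≤ r) :
    M.nG ≤ pD M.nQ M.nG r ∧ pLf r + 1 ≤ pD M.nQ M.nG r ∧
      pD M.nQ M.nG r ≤ (r * r + 1) * pD M.nQ M.nG r ∧
      (r * r + 1) * pD M.nQ M.nG r ≤ r * ((r * r + 1) * pD M.nQ M.nG r) := by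
  refine ⟨Nat.le_add_left _ _, ?_, Nat.le_mul_of_pos_left _ (by omega),
    Nat.le_mul_of_pos_left _ hr⟩
  have h1 : pLf r ≤ pBase r := by
    rw [pBase, mul_assoc]
    exact Nat.le_mul_of_pos_right _ (by positivity)
  have h2 : 2 * pBase r + (r * r + 1) + 1 ≤ M.nQ * (2 * pBase r + (r * r + 1) + 1) :=
    Nat.le_mul_of_pos_left _ hQ
  unfold pD
  omega

theorem try_ev_lt (hM : M.WF) (hc : (initC q0 I (pBase r + o)).Ok M) (ho : o < r * r + 1) :
    ∀ s ≤ pLf r * r, ev M (r * r + 1) (r ^ 5) (initC q0 I (pBase r + o)) s < pD M.nQ M.nG r := by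
  intro s hs
  refine (evc_mac_lt hM hc s).trans_le ?_
  have h1 : s * r ^ 5 ≤ pBase r := Nat.mul_le_mul_right _ hs
  refine le_trans (Nat.mul_le_mul_left _ ?_) (Nat.le_add_right _ _)
  simp only [initC]
  omega

theorem try_good (hM : M.WF) (hc : (initC q0 I (pBase r + o)).Ok M)
    (h : good M.nQ M.nG r o q P) : q.Prime ∧ q ^ (r * r + 1) ≤ P ∧
    (tryDag M q0 I r o q P).W (dagDep r (0, pLf r + 1)) (dagEps r (0, pLf r + 1)) ≤ P ∧
    (tryDag M q0 I r o q P).Good (dagV q r (pLf r))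
      (dagVal M (pD M.nQ M.nG r) r r (r ^ 5) (initC q0 I (pBase r + o))) (dagDep r) (dagEps r) := by
  obtain ⟨hr, ho, hq, hK, hP⟩ := h
  rw [cpow_le_iff] at hP
  have hQ : 0 < M.nQ := (Nat.zero_le _).trans_lt hc.1
  obtain ⟨f1, f2, f3, f4⟩ := pD_facts hQ hr
  unfold pK at hK
  have h1 : q ^ (r * r + 1) ≤ P := by
    refine le_trans ?_ hP
    calc q ^ (r * r + 1) ≤ (q + 1) ^ (r * r + 1) := Nat.pow_le_pow_left (by omega) _
      _ ≤ (q + 1) ^ pE r := Nat.pow_le_pow_right (by omega) (by unfold pE; nlinarith)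
  refine ⟨(prime_iff_nDiv (by omega)).2 hq, h1, ?_, ?_⟩
  · refine le_trans ?_ hP
    have hlf : 0 < pLf r := by unfold pLf; positivity
    have e1 : dagDep r (0, pLf r + 1) = 2 * (pLf r + 1) := by simp [dagDep]
    have e2 : dagEps r (0, pLf r + 1) ≤ r + 2 := by
      simp only [dagEps, Nat.add_eq_zero_iff, one_ne_zero, and_false, if_false, if_true]
      rw [if_neg (by omega)]
      have : (pLf r + 1 - 2) / r < r + 1 := by
        rw [Nat.div_lt_iff_lt_mul hr]
        unfold pLf at *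
        omega
      omega
    have e3 : (r * r + 1) * cpow P (pD M.nQ M.nG r) (r + 1) + 1 ≤ (q + 1) ^ (r + 1) := by
      have h2 : (r * r + 1) * cpow P (pD M.nQ M.nG r) (r + 1) ≤ q ^ (r + 1) := by
        calc (r * r + 1) * cpow P (pD M.nQ M.nG r) (r + 1)
            ≤ (r * r + 1) * pD M.nQ M.nG r ^ (r + 1) :=
              Nat.mul_le_mul_left _ (min_le_right _ _)
          _ = ((r * r + 1) * pD M.nQ M.nG r) * pD M.nQ M.nG r ^ r := by ring
          _ ≤ q * q ^ r := Nat.mul_le_mul (by omega) (Nat.pow_le_pow_left (by omega) _)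
          _ = q ^ (r + 1) := by ring
      have h3 : q ^ (r + 1) < (q + 1) ^ (r + 1) := Nat.pow_lt_pow_left (by omega) (by omega)
      omega
    calc (tryDag M q0 I r o q P).W (dagDep r (0, pLf r + 1)) (dagEps r (0, pLf r + 1))
        = (q + 1) ^ (8 * (2 * (pLf r + 1))) *
          ((r * r + 1) * cpow P (pD M.nQ M.nG r) (r + 1) + 1) ^ dagEps r (0, pLf r + 1) := by
          rw [e1]; rfl
      _ ≤ (q + 1) ^ (8 * (2 * (pLf r + 1))) * ((q + 1) ^ (r + 1)) ^ (r + 2) := by
          refine Nat.mul_le_mul_left _ ((Nat.pow_le_pow_left e3 _).trans ?_)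
          exact Nat.pow_le_pow_right (by positivity) e2
      _ = (q + 1) ^ (8 * (2 * (pLf r + 1)) + (r + 1) * (r + 2)) := by rw [← pow_mul, ← pow_add]
      _ ≤ (q + 1) ^ pE r := Nat.pow_le_pow_right (by omega) (by unfold pE pLf; nlinarith)
  · exact mkDag_good (c := initC q0 I (pBase r + o)) hM hc f1 hr hr (try_ev_lt hM hc ho)
      (by omega) h1 (by omega) (by omega) (by omega)

/-- The run of the stack machine: all numbers stay below `P`. -/
theorem try_run (hM : M.WF) (hc : (initC q0 I (pBase r + o)).Ok M) :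
    ∃ n, tryFin M q0 I r o q P = (step (tryDag M q0 I r o q P))^[n] (tryInit M r o q P) ∧
      (∀ k < n, ((step (tryDag M q0 I r o q P))^[k] (tryInit M r o q P)).1 ≠ 0) ∧
      ∀ k ≤ n, ((step (tryDag M q0 I r o q P))^[k] (tryInit M r o q P)).1 ≤ P ∧
        ((step (tryDag M q0 I r o q P))^[k] (tryInit M r o q P)).2.1 ≤ P ∧
        ((step (tryDag M q0 I r o q P))^[k] (tryInit M r o q P)).2.2.1 ≤ P ∧
        ((step (tryDag M q0 I r o q P))^[k] (tryInit M r o q P)).2.2.2 ≤ P := by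
  by_cases h : good M.nQ M.nG r o q P
  · obtain ⟨hq, h1, h2, hg⟩ := try_good hM hc h
    have : Fact (tryDag M q0 I r o q P).q.Prime := ⟨hq⟩
    obtain ⟨n, A, e, hA, hd, hn⟩ := hg.run (u := (0, pLf r + 1)) ⟨Nat.zero_le _, le_rfl, by simp⟩
    have ei : tryInit M r o q P = (enter (tryDag M q0 I r o q P).q (tryDag M q0 I r o q P).G
        (0, pLf r + 1) 0, 0, 0, 0) := by
      rw [tryInit, if_pos h]; rfl
    have ef : tryFin M q0 I r o q P = (0, A, 0, 0) := by
      rw [tryFin, if_pos h, ← ofd_dig _ A hA]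
      congr 2
      exact (ofd_congr _ _ _ hd).symm
    rw [ei, ef]
    refine ⟨n, e.symm, fun k hk => (hn k hk).1, fun k hk => ?_⟩
    rcases hk.lt_or_eq with hk | rfl
    · obtain ⟨-, g1, g2, g3, g4⟩ := hn k hk
      exact ⟨g1.trans h2, g2.le.trans h1, g3.le.trans h1, g4.le.trans h1⟩
    · rw [e]
      exact ⟨Nat.zero_le _, hA.le.trans h1, Nat.zero_le _, Nat.zero_le _⟩
  · refine ⟨0, by simp [tryFin, tryInit, h], fun k hk => by omega, fun k hk => ?_⟩
    obtain rfl : k = 0 := by omega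
    simp [tryInit, h]

theorem tryAns_eq (hM : M.WF) (hc : (initC q0 I (pBase r + o)).Ok M)
    (h : good M.nQ M.nG r o q P) : tryAns M q0 I r o q P =
      outc ((mac M (r * r + 1) (r ^ 5))^[pLf r * r] (initC q0 I (pBase r + o))).1 := by
  obtain ⟨-, -, -, hg⟩ := try_good hM hc h
  have hD0 : 0 < pD M.nQ M.nG r := hg.D0
  have hDq : pD M.nQ M.nG r ≤ q := hg.Dq
  rw [tryAns, if_pos h, tryFin, if_pos h]
  dsimp only
  rw [dig_ofd _ _ (fun i _ => (dig_lt hD0 _ _).trans_le hDq) _ (Nat.lt_succ_self _)]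
  simp only [dagVal, Nat.add_eq_zero_iff, one_ne_zero, and_false, if_false, if_true,
    Nat.add_sub_cancel]
  rw [dig_ofd _ _ (fun t ht => try_ev_lt hM hc h.2.1 _ (by omega)) _ (Nat.lt_succ_self _),
    Nat.add_sub_cancel, ev, evc_mod (hc.mac_iter hM _ _ _)]

end

section

variable {A : Type} {M : OneTape A} {x : List A} {τ₀ : ℕ}

/-- Soundness of one try. -/
theorem tryAns_sound (h₀ : M.Halted (M.conf x τ₀)) (r o q P : ℕ) :
    tryAns (nm M) (eQ M M.start) (fun i => code M (inAt x i)) r o q P = 0 ∨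
    tryAns (nm M) (eQ M M.start) (fun i => code M (inAt x i)) r o q P
      = flag M (M.conf x τ₀).state + 1 := by
  by_cases h : good (nm M).nQ (nm M).nG r o q P
  · rw [tryAns_eq (nm_wf M) (initC_ok M x _) h, outc]
    split_ifs with h1
    · right
      obtain ⟨τ, hτ, e⟩ := mac_iter_eq (M := nm M) (w := r * r + 1) (T := r ^ 5)
        (initC (eQ M M.start) (fun i => code M (inAt x i)) (pBase r + o)) (pLf r * r)
      rw [e] at h1 ⊢
      rw [nm_sound (p0 := pBase r + o) h₀ (hτ.trans (Nat.le_add_right _ _)) h1]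
    · exact Or.inl rfl
  · exact Or.inl (if_neg h)

/-- Completeness of the search. -/
theorem exists_try (h₀ : M.Halted (M.conf x τ₀)) {r : ℕ} (hr : τ₀ + 1 ≤ r ^ 5) :
    ∃ o q, r < pBound (nm M).nQ (nm M).nG r ∧ o < pBound (nm M).nQ (nm M).nG r ∧
      q < pBound (nm M).nQ (nm M).nG r ∧
      tryAns (nm M) (eQ M M.start) (fun i => code M (inAt x i)) r o q
        (pBound (nm M).nQ (nm M).nG r) ≠ 0 := by
  have hr1 : 1 ≤ r := by
    rcases Nat.eq_zero_or_pos r with rfl | h
    · simp at hr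
    · exact h
  have hQ : 0 < (nm M).nQ := Nat.succ_pos _
  obtain ⟨f1, f2, f3, f4⟩ := pD_facts hQ hr1
  obtain ⟨q, hq, hq1, hq2⟩ := Nat.exists_prime_lt_and_le_two_mul (pK (nm M).nQ (nm M).nG r)
    (by unfold pK; omega)
  have hb : r ^ 5 ≤ pBase r := Nat.le_mul_of_pos_left _ (by unfold pLf; positivity)
  have hm : r ^ 5 / (r * r + 1) < pLf r * r := by
    rw [Nat.div_lt_iff_lt_mul (by omega)]
    unfold pLf
    have : 0 < r ^ 4 := by positivity
    nlinarith
  obtain ⟨o, ho, h⟩ := nm_complete h₀ (w := r * r + 1) (by omega) hr hb hm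
  have hP : (q + 1) ^ pE r < pBound (nm M).nQ (nm M).nG r :=
    Nat.lt_succ_of_le (Nat.pow_le_pow_left (by omega) _)
  have hq3 : q + 1 ≤ (q + 1) ^ pE r := Nat.le_self_pow (by unfold pE; positivity) _
  have hN : r * r + 1 ≤ (r * r + 1) * pD (nm M).nQ (nm M).nG r :=
    Nat.le_mul_of_pos_right _ (by omega)
  have hrr : r ≤ r * r := Nat.le_mul_self r
  have hg : good (nm M).nQ (nm M).nG r o q (pBound (nm M).nQ (nm M).nG r) :=
    ⟨hr1, ho, (prime_iff_nDiv hq.two_le).1 hq, hq1, (cpow_le_iff _ _ _).2 hP.le⟩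
  unfold pK at hq1
  refine ⟨o, q, by omega, by omega, by omega, ?_⟩
  rw [tryAns_eq (nm_wf M) (initC_ok M x _) hg, outc, if_pos h]
  omega

theorem ansP_sound (h₀ : M.Halted (M.conf x τ₀)) (P : ℕ) :
    ansP (nm M) (eQ M M.start) (fun i => code M (inAt x i)) P = 0 ∨
    ansP (nm M) (eQ M M.start) (fun i => code M (inAt x i)) P
      = flag M (M.conf x τ₀).state + 1 := by
  rw [ansP]
  split_ifs with h1 h2
  · exact Or.inl rfl
  · right
    have hf := flag_le M (M.conf x τ₀).state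
    by_contra hc
    have hf1 : flag M (M.conf x τ₀).state = 1 := by omega
    obtain ⟨r, hr, h3⟩ := exists_ne_zero_of_sum_ne_zero h1
    obtain ⟨o, ho, h4⟩ := exists_ne_zero_of_sum_ne_zero h3
    obtain ⟨q, hq, h5⟩ := exists_ne_zero_of_sum_ne_zero h4
    have h6 := tryAns_sound h₀ r o q P
    have h7 : tryAns (nm M) (eQ M M.start) (fun i => code M (inAt x i)) r o q P = 2 := by
      rcases h6 with h6 | h6
      · rw [h6] at h5
        simp at h5
      · omega
    have h8 : P * P * P + 1 ≤ cntAns (nm M) (eQ M M.start) (fun i => code M (inAt x i)) P := by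
      refine le_trans ?_ (single_le_sum (f := fun r => ∑ o ∈ range P, ∑ q ∈ range P, _)
        (fun _ _ => Nat.zero_le _) hr)
      refine le_trans ?_ (single_le_sum (f := fun o => ∑ q ∈ range P, _)
        (fun _ _ => Nat.zero_le _) ho)
      refine le_trans ?_ (single_le_sum (fun _ _ => Nat.zero_le _) hq)
      rw [if_pos h7]
    omega
  · right
    have hf := flag_le M (M.conf x τ₀).state
    by_contra hc
    have hf1 : flag M (M.conf x τ₀).state = 0 := by omega
    apply h2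
    calc cntAns (nm M) (eQ M M.start) (fun i => code M (inAt x i)) P
        ≤ ∑ r ∈ range P, ∑ o ∈ range P, ∑ q ∈ range P, 1 := by
          refine sum_le_sum fun r _ => sum_le_sum fun o _ => sum_le_sum fun q _ => ?_
          have h6 := tryAns_sound h₀ r o q P
          split_ifs <;> omega
      _ = P * P * P := by simp [mul_assoc]

theorem ansP_complete (h₀ : M.Halted (M.conf x τ₀)) {r : ℕ} (hr : τ₀ + 1 ≤ r ^ 5) :
    ansP (nm M) (eQ M M.start) (fun i => code M (inAt x i)) (pBound (nm M).nQ (nm M).nG r)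
      ≠ 0 := by
  obtain ⟨o, q, h1, h2, h3, h⟩ := exists_try h₀ hr
  have : cntAns (nm M) (eQ M M.start) (fun i => code M (inAt x i))
      (pBound (nm M).nQ (nm M).nG r) ≠ 0 := by
    intro h0
    rw [cntAns, sum_eq_zero_iff] at h0
    have h4 := h0 r (mem_range.2 h1)
    rw [sum_eq_zero_iff] at h4
    have h5 := h4 o (mem_range.2 h2)
    rw [sum_eq_zero_iff] at h5
    have h6 := h5 q (mem_range.2 h3)
    by_cases h7 : tryAns (nm M) (eQ M M.start) (fun i => code M (inAt x i)) r o q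
        (pBound (nm M).nQ (nm M).nG r) = 2
    · rw [if_pos h7] at h6
      omega
    · rw [if_neg h7] at h6
      exact h h6
  rw [ansP, if_neg this]
  split_ifs <;> omega

end

end Vale.Agent.P312
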