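import Vale.Agent.P312.SPTape
import Vale.Agent.P312.Try
import Vale.Agent.P312.Asymp

/-! The whole simulation is computable in small space. -/

namespace Vale.Agent.P312

open Finset Vale.Agent.Lib.Space

variable {A : Type} {B : Bud A} {α : Type} [Enc A α]

@[fun_prop] theorem sp_pLf {r : α → ℕ} (hr : SP B r) : SP B fun v => pLf (r v) := by
  unfold pLf; fun_prop

@[fun_prop] theorem sp_pBase {r : α → ℕ} (hr : SP B r) : SP B fun v => pBase (r v) := by
  unfold pBase; fun_prop

@[fun_prop] theorem sp_pD (nQ nG : ℕ) {r : α → ℕ} (hr : SP B r) :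
    SP B fun v => pD nQ nG (r v) := by
  unfold pD; fun_prop

@[fun_prop] theorem sp_pK (nQ nG : ℕ) {r : α → ℕ} (hr : SP B r) :
    SP B fun v => pK nQ nG (r v) := by
  unfold pK; fun_prop

@[fun_prop] theorem sp_pE {r : α → ℕ} (hr : SP B r) : SP B fun v => pE (r v) := by
  unfold pE; fun_prop

@[fun_prop] theorem sp_nDiv {q : α → ℕ} (hq : SP B q) : SP B fun v => nDiv (q v) := by
  refine SP.sum_range hq (SP.ite ?_ (by fun_prop) (by fun_prop))
  simp only [Bool.decide_and]
  fun_prop

theorem sp_good (nQ nG : ℕ) {r o q P : α → ℕ} (hr : SP B r) (ho : SP B o) (hq : SP B q)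
    (hP : SP B P) : SP B fun v => decide (good nQ nG (r v) (o v) (q v) (P v)) := by
  have e : (fun v => decide (good nQ nG (r v) (o v) (q v) (P v))) = fun v =>
      decide (1 ≤ r v) && (decide (o v < r v * r v + 1) && (decide (nDiv (q v) = 0) &&
        (decide (pK nQ nG (r v) < q v) &&
          decide (cpow (P v + 1) (q v + 1) (pE (r v)) ≤ P v)))) := by
    funext v
    simp only [← Bool.decide_and]
    exact decide_eq_decide.2 Iff.rfl
  rw [e]
  refine SP.and (SP.decide_le ?_ ?_) (SP.and (SP.decide_lt ?_ ?_) (SP.and (SP.decide_eq ?_ ?_)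
    (SP.and (SP.decide_lt ?_ ?_) (SP.decide_le ?_ ?_)))) <;> fun_prop

theorem sp_tryInit (M : NM) {r o q P : α → ℕ} (hr : SP B r) (ho : SP B o) (hq : SP B q)
    (hP : SP B P) : SP B fun v => tryInit M (r v) (o v) (q v) (P v) :=
  SP.pair (SP.ite (sp_good _ _ hr ho hq hP) (by fun_prop) (by fun_prop)) (by fun_prop)

@[fun_prop] theorem sp_outc {s : α → ℕ} (hs : SP B s) : SP B fun v => outc (s v) :=
  SP.ite (by fun_prop) (by fun_prop) (by fun_prop)

theorem pbd_enc : PBd B fun v : α => Enc.enc A v :=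
  ⟨1, fun x v _ => by rw [pow_one]; beta_reduce; omega⟩

theorem iterate_ctx {β : Type} (f : α → β → β) (v : α) (s : β) (k : ℕ) :
    (fun p : α × β => (p.1, f p.1 p.2))^[k] (v, s) = (v, (f v)^[k] s) := by
  induction k with
  | zero => rfl
  | succ k ih => rw [Function.iterate_succ_apply', ih, Function.iterate_succ_apply']

/-- A while loop whose body depends on the context. -/
theorem sp_whileC {β : Type} [Enc A β] {init res : α → β} {stp : α → β → β} {cont : α → β → Bool}
    {bd : α → ℕ} (hi : SP B init) (hs : SP B fun p : α × β => stp p.1 p.2)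
    (hc : SP B fun p : α × β => cont p.1 p.2) (hb : PBd B bd)
    (h : ∀ (x : List A) v, Enc.ok x v → ∃ n, res v = (stp v)^[n] (init v) ∧
      cont v ((stp v)^[n] (init v)) = false ∧ (∀ k < n, cont v ((stp v)^[k] (init v)) = true) ∧
      ∀ k ≤ n, Enc.enc A ((stp v)^[k] (init v)) ≤ bd v) : SP B res := by
  have key : SP B fun v => (v, res v) := by
    refine SP.while (init := fun v => (v, init v)) (step := fun p : α × β => (p.1, stp p.1 p.2))
      (cont := fun p => cont p.1 p.2) (bd := fun v => (Enc.enc A v + bd v + 1) ^ 2)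
      (by fun_prop) (SP.pair (by fun_prop) hs) hc
      (((pbd_enc.add hb).add (PBd.const 1)).pow 2) fun x v hv => ?_
    obtain ⟨n, h1, h2, h3, h4⟩ := h x v hv
    refine ⟨n, ?_, ?_, fun k hk => ?_, fun k hk => ?_⟩
    · rw [iterate_ctx, h1]
    · rw [iterate_ctx]; exact h2
    · rw [iterate_ctx]; exact h3 k hk
    · rw [iterate_ctx]
      refine (enc_pair_le _ _).trans (Nat.pow_le_pow_left ?_ 2)
      have := h4 k hk
      omega
  exact key.snd

theorem enc_four_le {a b c d P : ℕ} (ha : a ≤ P) (hb : b ≤ P) (hc : c ≤ P) (hd : d ≤ P) :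
    Enc.enc A (a, b, c, d) ≤ (P + (P + (P + P + 1) ^ 2 + 1) ^ 2 + 1) ^ 2 := by
  have e : ∀ n : ℕ, Enc.enc A n = n := fun _ => rfl
  refine (enc_pair_le _ _).trans (Nat.pow_le_pow_left ?_ 2)
  have h2 : Enc.enc A (b, c, d) ≤ (P + (P + P + 1) ^ 2 + 1) ^ 2 := by
    refine (enc_pair_le _ _).trans (Nat.pow_le_pow_left ?_ 2)
    have h3 : Enc.enc A (c, d) ≤ (P + P + 1) ^ 2 := by
      refine (enc_pair_le _ _).trans (Nat.pow_le_pow_left ?_ 2)
      rw [e, e]; omega
    rw [e]; omega
  rw [e]; omega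

section machine

variable [Finite A] (M : OneTape A)

theorem sp_tryDag {X : α → Inp A} {r o q P : α → ℕ} (hX : SP B X) (hr : SP B r) (ho : SP B o)
    (hq : SP B q) (hP : SP B P) : SPDag B fun v =>
      tryDag (nm M) (eQ M M.start) (fun i => code M (inAt (X v) i)) (r v) (o v) (q v) (P v) := by
  exact sp_mkDag (nm_comp B M) hP (by fun_prop) hq hr hr (by fun_prop)
    (by fun_prop) (SP.inCode (code M) (by fun_prop) (by fun_prop))

theorem sp_tryFin {X : α → Inp A} {r o q P : α → ℕ} (hX : SP B X) (hr : SP B r) (ho : SP B o)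
    (hq : SP B q) (hP : SP B P) : SP B fun v =>
      tryFin (nm M) (eQ M M.start) (fun i => code M (inAt (X v) i)) (r v) (o v) (q v) (P v) := by
  have hd := sp_tryDag M hX hr ho hq hP
  have hb := PBd.of_SP hP
  refine sp_whileC (init := fun v => tryInit (nm M) (r v) (o v) (q v) (P v))
    (stp := fun v => step (tryDag (nm M) (eQ M M.start) (fun i => code M (inAt (X v) i))
      (r v) (o v) (q v) (P v)))
    (cont := fun _ σ => !decide (σ.1 = 0))
    (bd := fun v => (P v + (P v + (P v + P v + 1) ^ 2 + 1) ^ 2 + 1) ^ 2)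
    (sp_tryInit _ hr ho hq hP) (sp_step (hd.comp (c := Prod.fst) (by fun_prop)) (by fun_prop))
    (by fun_prop)
    (((hb.add ((((hb.add ((((hb.add hb).add (PBd.const 1)).pow 2))).add (PBd.const 1)).pow
      2))).add (PBd.const 1)).pow 2) fun x v _ => ?_
  obtain ⟨n, h1, h2, h3⟩ := try_run (r := r v) (o := o v) (q := q v) (P := P v) (nm_wf M)
    (initC_ok M (X v) _)
  refine ⟨n, h1, ?_, fun k hk => ?_, fun k hk => ?_⟩
  · rw [← h1]; simp [tryFin]
  · simpa using h2 k hk
  · obtain ⟨a1, a2, a3, a4⟩ := h3 k hk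
    exact enc_four_le a1 a2 a3 a4

theorem sp_tryAns {X : α → Inp A} {r o q P : α → ℕ} (hX : SP B X) (hr : SP B r) (ho : SP B o)
    (hq : SP B q) (hP : SP B P) : SP B fun v =>
      tryAns (nm M) (eQ M M.start) (fun i => code M (inAt (X v) i)) (r v) (o v) (q v) (P v) := by
  have hf := (sp_tryFin M hX hr ho hq hP).snd.fst
  exact SP.ite (sp_good _ _ hr ho hq hP)
    (sp_outc (SP.mod (sp_dig hq hf (by fun_prop)) (by fun_prop))) (by fun_prop)

theorem sp_cntAns {X : α → Inp A} {P : α → ℕ} (hX : SP B X) (hP : SP B P) : SP B fun v =>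
    cntAns (nm M) (eQ M M.start) (fun i => code M (inAt (X v) i)) (P v) := by
  refine SP.sum_range hP (SP.sum_range (by fun_prop) (SP.sum_range (by fun_prop) ?_))
  have h : SP B fun p : ((α × ℕ) × ℕ) × ℕ => tryAns (nm M) (eQ M M.start)
      (fun i => code M (inAt (X p.1.1.1) i)) p.1.1.2 p.1.2 p.2 (P p.1.1.1) :=
    sp_tryAns M (by fun_prop) (by fun_prop) (by fun_prop) (by fun_prop) (by fun_prop)
  exact SP.ite (SP.decide_eq h (by fun_prop)) (by fun_prop) h

theorem sp_ansP {X : α → Inp A} {P : α → ℕ} (hX : SP B X) (hP : SP B P) : SP B fun v =>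
    ansP (nm M) (eQ M M.start) (fun i => code M (inAt (X v) i)) (P v) := by
  have h := sp_cntAns M hX hP
  exact SP.ite (SP.decide_eq h (by fun_prop)) (by fun_prop)
    (SP.ite (SP.decide_le h (by fun_prop)) (by fun_prop) (by fun_prop))

end machine

theorem eb_pBound (nQ nG : ℕ) : EB fun r => pBound nQ nG r + 2 := by
  have h1 : PB pLf := (PB.id.add (PB.const 1)).mul PB.id
  have h2 : PB pBase := (h1.mul PB.id).mul (PB.id.pow 5)
  have h3 : PB fun r => r * r + 1 := (PB.id.mul PB.id).add (PB.const 1)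
  have h4 : PB (pD nQ nG) :=
    ((PB.const nQ).mul ((((PB.const 2).mul h2).add h3).add (PB.const 1))).add (PB.const nG)
  have h5 : PB (pK nQ nG) := (PB.id.mul (h3.mul h4)).add (PB.const 7)
  have h6 : PB fun r => 2 * pK nQ nG r + 1 := ((PB.const 2).mul h5).add (PB.const 1)
  exact ((h6.pow_qb (g := pE) ⟨18, fun r => by rw [pE, sq]⟩).add (PB.const 1).eb).add
    (PB.const 2).eb

theorem iterate_succ_nat (k : ℕ) : (fun n : ℕ => n + 1)^[k] 0 = k := by
  induction k with
  | zero => rfl
  | succ k ih => rw [Function.iterate_succ_apply', ih]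

/-- One-tape time `t` is contained in space `t^(2/5) log t`. -/
theorem time1_subset_space (A : Type) (t : ℕ → ℕ) (ht : ∀ n, n ≤ t n) :
    TIME1 A t ⊆ SPACE A fun n => (t n : ℝ) ^ (2 / 5 : ℝ) * Real.log (t n) := by
  classical
  rintro L ⟨M, hM⟩
  have : Finite A := @Finite.of_injective _ _ M.finSym _ M.letter_inj
  choose τ hτ hhalt hacc using hM
  choose ρ hρ1 hρ2 hρ3 using exists_root
  let bd : List A → ℕ := fun x => pBound (nm M).nQ (nm M).nG (ρ (t x.length + 1))
  let ans : List A → ℕ → ℕ := fun x P =>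
    ansP (nm M) (eQ M M.start) (fun i => code M (inAt x i)) P
  have hbd : ∀ x, ans x (bd x) ≠ 0 := fun x =>
    ansP_complete (hhalt x) ((Nat.succ_le_succ (hτ x)).trans (hρ2 _))
  have hex : ∀ x, ∃ P, ans x P ≠ 0 := fun x => ⟨_, hbd x⟩
  have hP : SP ⟨bd⟩ fun x : Inp A => Nat.find (hex x) := by
    refine sp_whileC (init := fun _ => 0) (stp := fun _ n => n + 1)
      (cont := fun (x : Inp A) P => decide (ans x P = 0)) (bd := fun x => bd x)
      (by fun_prop) (by fun_prop)
      (SP.decide_eq (sp_ansP M (by fun_prop) (by fun_prop)) (by fun_prop))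
      (PBd.budget SP.id) fun _ x _ => ⟨Nat.find (hex x), ?_, ?_, fun k hk => ?_, fun k hk => ?_⟩
    · rw [iterate_succ_nat]
    · rw [iterate_succ_nat]; simpa using Nat.find_spec (hex x)
    · rw [iterate_succ_nat]; simpa using Nat.find_min (hex x) hk
    · rw [iterate_succ_nat]
      exact hk.trans (Nat.find_min' (hex x) (hbd x))
  refine SP.mem_SPACE (B := ⟨bd⟩) (f := fun x : Inp A => decide (ans x (Nat.find (hex x)) = 2))
    (SP.decide_eq (sp_ansP M SP.id hP) (by fun_prop)) (fun x => ?_) ?_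
  · rw [decide_eq_true_iff]
    refine Iff.trans ?_ (hacc x)
    rcases ansP_sound (hhalt x) (Nat.find (hex x)) with h | h
    · exact absurd h (Nat.find_spec (hex x))
    · show ansP _ _ _ _ = 2 ↔ _
      rw [h, flag]
      split_ifs with h2 <;> simp [h2]
  · obtain ⟨c, hc⟩ := eb_pBound (nm M).nQ (nm M).nG
    obtain ⟨C, hC⟩ := log_bound c
    refine ⟨C, 2, fun x hx => ?_⟩
    have h2 : 2 ≤ t x.length := hx.trans (ht _)
    have h3 := hρ3 (t x.length + 1) (by omega)
    refine le_trans ?_ (hC _ _ _ h2 (Nat.le_of_lt_succ h3) (hc _))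
    exact_mod_cast Nat.le_succ _

end Vale.Agent.P312
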